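import Vale.Agent.P363.Exist.Bridge.Energy

/-!
P363: from a lowest state of the scaled spatial problem to a ground state of a Coulomb molecule.
-/

noncomputable section

namespace Vale.Agent.P363.Exist

open MeasureTheory Filter
open scoped BigOperators Topology ENNReal

theorem molPot_eq_scaledMol {n : ℕ} (l lam : ℝ) :
    (molPot l lam : Cfg n → ℝ) = scaledMol ![nuc l, -nuc l] lam := by
  funext x
  simp [molPot, scaledMol, attract, Fin.sum_univ_two, sub_neg_eq_add]

/-- The spin state of a lowest state is a ground state of the scaled form. -/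
theorem ground_spinState {l lam E : ℝ} {f : Cfg 3 → ℝ} {D : Fin 3 → Fin 3 → Cfg 3 → ℝ}
    (hlam : lam ∈ Set.Icc (0 : ℝ) 1) (h : IsLowest l lam Anti01 E f D) :
    IsGroundState (molPot l lam) (spinState f) := by
  have hS := molSys_good 3 l hlam
  have hf := h.lim.1
  obtain ⟨ψ, hψ, hE, hlim⟩ := exists_minimising h hS
  refine ⟨fun s => ?_, E, fun φ hφ h1 => energy_ge h.lower hS hφ h1, fun k => spinState (ψ k),
    fun k => ⟨isTest_spinState (hψ k).1 (hψ k).2.1, by rw [normSq_spinState, (hψ k).2.2]⟩, ?_,
    fun s => ?_⟩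
  · exact ((hf.comp_measurePreserving (measurePreserving_slotMap _ _)).const_smul
      (√(1 / 3) * (spinSign s : ℝ))).ofReal
  · exact hE.congr fun k => (energy_spinState hS (hψ k).1 (hψ k).2.1).symm
  · have e : ∀ k, (∫ x, ‖spinState (ψ k) s x - spinState f s x‖ ^ 2) =
        (√(1 / 3) * (spinSign s : ℝ)) ^ 2 * mass (ψ k - f) := fun k => by
      rw [← mass_comp_renum (spinPerm s) (ψ k - f), ← mass_smul]
      refine integral_congr_ae (Eventually.of_forall fun x => ?_)
      simp only [spinState, ← Complex.ofReal_sub, Complex.norm_real, Real.norm_eq_abs, sq_abs,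
        spinComp, Pi.smul_apply, Pi.sub_apply, Function.comp_apply, smul_eq_mul, mul_sub]
    simp only [e]
    simpa using hlim.const_mul _

/-- `BridgeGoal`. -/
theorem bridge : BridgeGoal := by
  intro l Z E f D hZ h
  have hZ' : (0 : ℝ) < Z := by exact_mod_cast hZ
  have hlam : 1 / (Z : ℝ) ∈ Set.Icc (0 : ℝ) 1 :=
    ⟨by positivity, by rw [div_le_one hZ']; exact_mod_cast hZ⟩
  refine ⟨?_, fun r => ?_⟩
  · have hg := ground_scale 3 (Z : ℝ) _ _ hZ' (ground_spinState hlam h)
    rw [molPot_eq_scaledMol, scalePot_scaledMol _ hZ, ← molState_eq hZ'] at hg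
    convert hg using 2
    funext j
    fin_cases j <;> simp [nuc, smul_smul, div_eq_inv_mul]
  · rw [molState_eq hZ', density_scale hZ', density_spinState]

end Vale.Agent.P363.Exist
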