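import Mathlib

/-!
P363: squared norms and inner products of real `L²` functions written as integrals.
-/

noncomputable section

namespace Vale.Agent.P363.Exist

open MeasureTheory Filter
open scoped Topology ENNReal

variable {α : Type*} [MeasureSpace α] {f g h : α → ℝ}

/-- The squared norm. -/
def mass (f : α → ℝ) : ℝ := ∫ x, f x ^ 2

/-- The inner product. -/
def ip (f g : α → ℝ) : ℝ := ∫ x, f x * g x

theorem mass_nonneg (f : α → ℝ) : 0 ≤ mass f := integral_nonneg fun _ => sq_nonneg _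

theorem ip_self (f : α → ℝ) : ip f f = mass f := by simp [ip, mass, sq]

theorem ip_comm (f g : α → ℝ) : ip f g = ip g f := by simp only [ip, mul_comm]

theorem ip_congr {f' g' : α → ℝ} (hf : f =ᵐ[volume] f') (hg : g =ᵐ[volume] g') :
    ip f g = ip f' g' := by
  refine integral_congr_ae ?_
  filter_upwards [hf, hg] with x h1 h2
  rw [h1, h2]

theorem mass_congr {f' : α → ℝ} (hf : f =ᵐ[volume] f') : mass f = mass f' := by
  rw [← ip_self, ← ip_self, ip_congr hf hf]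

theorem inner_toLp (hf : MemLp f 2) (hg : MemLp g 2) :
    inner ℝ (hf.toLp f) (hg.toLp g) = ip f g := by
  rw [L2.inner_def, ip]
  refine integral_congr_ae ?_
  filter_upwards [hf.coeFn_toLp, hg.coeFn_toLp] with x h1 h2
  rw [h1, h2]
  simp [mul_comm]

theorem norm_toLp_sq (hf : MemLp f 2) : ‖hf.toLp f‖ ^ 2 = mass f := by
  rw [← real_inner_self_eq_norm_sq, inner_toLp, ip_self]

theorem norm_toLp (hf : MemLp f 2) : ‖hf.toLp f‖ = √(mass f) := by
  rw [← norm_toLp_sq hf, Real.sqrt_sq (norm_nonneg _)]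

theorem abs_ip_le (hf : MemLp f 2) (hg : MemLp g 2) : |ip f g| ≤ √(mass f) * √(mass g) := by
  rw [← inner_toLp hf hg, ← norm_toLp hf, ← norm_toLp hg]
  exact abs_real_inner_le_norm _ _

theorem ip_sq_le (hf : MemLp f 2) (hg : MemLp g 2) : ip f g ^ 2 ≤ mass f * mass g := by
  have h := pow_le_pow_left₀ (abs_nonneg _) (abs_ip_le hf hg) 2
  rwa [sq_abs, mul_pow, Real.sq_sqrt (mass_nonneg f), Real.sq_sqrt (mass_nonneg g)] at h

theorem toLp_comb (a b : ℝ) (hf : MemLp f 2) (hg : MemLp g 2) :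
    ((hf.const_smul a).add (hg.const_smul b)).toLp (a • f + b • g) =
      a • hf.toLp f + b • hg.toLp g :=
  rfl

theorem ip_comb (a b : ℝ) (hf : MemLp f 2) (hg : MemLp g 2) (hh : MemLp h 2) :
    ip (a • f + b • g) h = a * ip f h + b * ip g h := by
  rw [← inner_toLp ((hf.const_smul a).add (hg.const_smul b)) hh, ← inner_toLp hf hh,
    ← inner_toLp hg hh, toLp_comb, inner_add_left, real_inner_smul_left, real_inner_smul_left]

theorem ip_comb' (a b : ℝ) (hh : MemLp h 2) (hf : MemLp f 2) (hg : MemLp g 2) :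
    ip h (a • f + b • g) = a * ip h f + b * ip h g := by
  rw [ip_comm, ip_comb a b hf hg hh, ip_comm f, ip_comm g]

theorem mass_comb (a b : ℝ) (hf : MemLp f 2) (hg : MemLp g 2) :
    mass (a • f + b • g) = a ^ 2 * mass f + 2 * (a * b) * ip f g + b ^ 2 * mass g := by
  rw [← ip_self, ip_comb a b hf hg ((hf.const_smul a).add (hg.const_smul b)),
    ip_comb' a b hf hf hg, ip_comb' a b hg hf hg, ip_self, ip_self, ip_comm g f]
  ring

theorem sub_eq_comb (f g : α → ℝ) : f - g = (1 : ℝ) • f + (-1 : ℝ) • g := by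
  ext x; simp [sub_eq_add_neg]

theorem mass_sub (hf : MemLp f 2) (hg : MemLp g 2) :
    mass (f - g) = mass f - 2 * ip f g + mass g := by
  rw [sub_eq_comb, mass_comb _ _ hf hg]; ring

theorem mass_sub_comm (f g : α → ℝ) : mass (f - g) = mass (g - f) := by
  refine integral_congr_ae (Eventually.of_forall fun x => ?_)
  simp only [Pi.sub_apply]; ring

theorem mass_sub_le (hf : MemLp f 2) (hg : MemLp g 2) (hh : MemLp h 2) :
    mass (f - h) ≤ 2 * mass (f - g) + 2 * mass (g - h) := by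
  rw [← norm_toLp_sq (hf.sub hh), ← norm_toLp_sq (hf.sub hg), ← norm_toLp_sq (hg.sub hh),
    MemLp.toLp_sub hf hh, MemLp.toLp_sub hf hg, MemLp.toLp_sub hg hh]
  have := norm_sub_le_norm_sub_add_norm_sub (hf.toLp f) (hg.toLp g) (hh.toLp h)
  nlinarith [norm_nonneg (hf.toLp f - hh.toLp h), sq_nonneg (‖hf.toLp f - hg.toLp g‖ - ‖hg.toLp g - hh.toLp h‖)]

theorem tendsto_toLp {φ : ℕ → α → ℝ} (hφ : ∀ k, MemLp (φ k) 2) (hf : MemLp f 2) :
    Tendsto (fun k => mass (φ k - f)) atTop (𝓝 0) ↔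
      Tendsto (fun k => (hφ k).toLp (φ k)) atTop (𝓝 (hf.toLp f)) := by
  have e : ∀ k, mass (φ k - f) = ‖(hφ k).toLp (φ k) - hf.toLp f‖ ^ 2 := fun k => by
    rw [← norm_toLp_sq ((hφ k).sub hf), MemLp.toLp_sub]
  simp only [e]
  rw [tendsto_iff_norm_sub_tendsto_zero (f := fun k => (hφ k).toLp (φ k))]
  refine ⟨fun h => ?_, fun h => ?_⟩
  · have h' := h.sqrt
    simpa only [Real.sqrt_sq (norm_nonneg _), Real.sqrt_zero] using h'
  · simpa using h.pow 2

theorem tendsto_ip {φ χ : ℕ → α → ℝ} (hφ : ∀ k, MemLp (φ k) 2) (hχ : ∀ k, MemLp (χ k) 2)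
    (hf : MemLp f 2) (hg : MemLp g 2) (h1 : Tendsto (fun k => mass (φ k - f)) atTop (𝓝 0))
    (h2 : Tendsto (fun k => mass (χ k - g)) atTop (𝓝 0)) :
    Tendsto (fun k => ip (φ k) (χ k)) atTop (𝓝 (ip f g)) := by
  simp only [← fun k => inner_toLp (hφ k) (hχ k), ← inner_toLp hf hg]
  exact ((tendsto_toLp hφ hf).1 h1).inner ((tendsto_toLp hχ hg).1 h2)

theorem tendsto_mass {φ : ℕ → α → ℝ} (hφ : ∀ k, MemLp (φ k) 2)
    (hf : MemLp f 2) (h1 : Tendsto (fun k => mass (φ k - f)) atTop (𝓝 0)) :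
    Tendsto (fun k => mass (φ k)) atTop (𝓝 (mass f)) := by
  simpa only [ip_self] using tendsto_ip hφ hφ hf hf h1 h1

theorem tendsto_const_mass (f : α → ℝ) :
    Tendsto (fun _ : ℕ => mass (f - f)) atTop (𝓝 0) := by
  simp [mass]

/-- A Cauchy sequence in mean square converges. -/
theorem cauchy_limit {φ : ℕ → α → ℝ} (hφ : ∀ k, MemLp (φ k) 2)
    (h : ∀ ε : ℝ, 0 < ε → ∃ N, ∀ j ≥ N, ∀ k ≥ N, mass (φ j - φ k) ≤ ε) :
    ∃ f, MemLp f 2 ∧ Tendsto (fun k => mass (φ k - f)) atTop (𝓝 0) := by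
  have hc : CauchySeq fun k => (hφ k).toLp (φ k) := by
    refine Metric.cauchySeq_iff'.2 fun ε hε => ?_
    obtain ⟨N, hN⟩ := h ((ε / 2) ^ 2) (by positivity)
    refine ⟨N, fun k hk => ?_⟩
    have := hN k hk N le_rfl
    rw [← norm_toLp_sq ((hφ k).sub (hφ N)), MemLp.toLp_sub] at this
    rw [dist_eq_norm]
    exact ((abs_le_of_sq_le_sq' this (by positivity)).2).trans_lt (half_lt_self hε)
  obtain ⟨F, hF⟩ := cauchySeq_tendsto_of_complete hc
  refine ⟨F, Lp.memLp F, (tendsto_toLp hφ (Lp.memLp F)).2 ?_⟩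
  rwa [Lp.toLp_coeFn]

/-- A sequence converging in mean square has a subsequence converging almost everywhere. -/
theorem exists_subseq_ae {φ : ℕ → α → ℝ} (hφ : ∀ k, MemLp (φ k) 2) (hf : MemLp f 2)
    (h : Tendsto (fun k => mass (φ k - f)) atTop (𝓝 0)) :
    ∃ σ : ℕ → ℕ, StrictMono σ ∧ ∀ᵐ x, Tendsto (fun j => φ (σ j) x) atTop (𝓝 (f x)) := by
  have h1 : Tendsto (fun k => eLpNorm (φ k - f) 2 volume) atTop (𝓝 0) := by
    have := (tendsto_iff_edist_tendsto_0).1 ((tendsto_toLp hφ hf).1 h)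
    simpa only [Lp.edist_toLp_toLp] using this
  exact (tendstoInMeasure_of_tendsto_eLpNorm (by norm_num) (fun k => (hφ k).1) hf.1
    h1).exists_seq_tendsto_ae

end Vale.Agent.P363.Exist
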