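import Vale.Agent.P363.Exist.Spec
import Vale.Agent.P363.Exist.L2
import Vale.Agent.P363.KS.FormLip

/-!
P363: quadratic forms `½ ∑ |∂_j f|² + V f²` on Lipschitz test functions, with form bounded `V`.
-/

noncomputable section

namespace Vale.Agent.P363.Exist

open MeasureTheory Filter
open scoped BigOperators Topology ENNReal

variable {E : Type} [NormedAddCommGroup E] [NormedSpace ℝ E] [FiniteDimensional ℝ E]
  [MeasureSpace E] [BorelSpace E] [(volume : Measure E).IsAddHaarMeasure]
  {ι : Type} [Fintype ι] {φ χ η : E → ℝ}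

/-- Derivative in the direction `w`. -/
def dir (w : E) (f : E → ℝ) (x : E) : ℝ := fderiv ℝ f x w

omit [FiniteDimensional ℝ E] [BorelSpace E] [(volume : Measure E).IsAddHaarMeasure]
  [MeasureSpace E] in
theorem isRealTest_smul (a : ℝ) (hφ : IsRealTest φ) : IsRealTest (a • φ) := by
  obtain ⟨K, hK⟩ := hφ.lipschitz
  exact ⟨⟨_, (lipschitzWith_smul a).comp hK⟩, hφ.compact.smul_left (f := fun _ => a)⟩

omit [FiniteDimensional ℝ E] [BorelSpace E] [(volume : Measure E).IsAddHaarMeasure]
  [MeasureSpace E] in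
theorem isRealTest_comb (a b : ℝ) (hφ : IsRealTest φ) (hχ : IsRealTest χ) :
    IsRealTest (a • φ + b • χ) := by
  obtain ⟨K, hK⟩ := (isRealTest_smul a hφ).lipschitz
  obtain ⟨L, hL⟩ := (isRealTest_smul b hχ).lipschitz
  exact ⟨⟨_, hK.add hL⟩, (isRealTest_smul a hφ).compact.add (isRealTest_smul b hχ).compact⟩

omit [FiniteDimensional ℝ E] [BorelSpace E] [(volume : Measure E).IsAddHaarMeasure]
  [MeasureSpace E] in
theorem isRealTest_sub (hφ : IsRealTest φ) (hχ : IsRealTest χ) : IsRealTest (φ - χ) := by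
  rw [sub_eq_add_neg, ← one_smul ℝ φ, ← neg_one_smul ℝ χ]
  exact isRealTest_comb _ _ hφ hχ

theorem memLp_test (hφ : IsRealTest φ) : MemLp φ 2 := by
  obtain ⟨K, hK⟩ := hφ.lipschitz
  exact hK.continuous.memLp_of_hasCompactSupport hφ.compact

theorem memLp_dir (hφ : IsRealTest φ) (w : E) : MemLp (dir w φ) 2 := by
  obtain ⟨K, hK⟩ := hφ.lipschitz
  exact memLp_fderiv_apply hK hφ.compact w 2

theorem dir_comb (a b : ℝ) (hφ : IsRealTest φ) (hχ : IsRealTest χ) (w : E) :
    dir w (a • φ + b • χ) =ᵐ[volume] a • dir w φ + b • dir w χ := by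
  obtain ⟨K, hK⟩ := hφ.lipschitz
  obtain ⟨L, hL⟩ := hχ.lipschitz
  filter_upwards [hK.ae_differentiableAt, hL.ae_differentiableAt] with x h1 h2
  simp only [dir, Pi.add_apply, Pi.smul_apply]
  rw [fderiv_add (h1.const_smul a) (h2.const_smul b), fderiv_const_smul h1 a,
    fderiv_const_smul h2 b]
  simp

theorem dir_sub (hφ : IsRealTest φ) (hχ : IsRealTest χ) (w : E) :
    dir w (φ - χ) =ᵐ[volume] dir w φ - dir w χ := by
  rw [sub_eq_comb, sub_eq_comb (dir w φ)]
  exact dir_comb 1 (-1) hφ hχ w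

/-- Directions of differentiation and a potential. -/
structure Sys (E ι : Type) where
  v : ι → E
  V : E → ℝ

variable (S : Sys E ι)

/-- The Dirichlet integral. -/
def Sys.kin (f : E → ℝ) : ℝ := ∑ j, mass (dir (S.v j) f)

/-- The form. -/
def Sys.form (f : E → ℝ) : ℝ :=
  ∫ x, ((1 / 2 : ℝ) * ∑ j, dir (S.v j) f x ^ 2 + S.V x * f x ^ 2)

/-- The bilinear form of the operator minus `e`. -/
def Sys.bil (e : ℝ) (f g : E → ℝ) : ℝ :=
  (1 / 2 : ℝ) * ∑ j, ip (dir (S.v j) f) (dir (S.v j) g) + ∫ x, (S.V x - e) * f x * g x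

/-- The potential is measurable and infinitesimally form bounded. -/
structure Sys.Good : Prop where
  meas : Measurable S.V
  bound : ∀ ε : ℝ, 0 < ε → ∃ C : ℝ, 0 ≤ C ∧ ∀ φ, IsRealTest φ →
    Integrable (fun x => |S.V x| * φ x ^ 2) ∧
      ∫ x, |S.V x| * φ x ^ 2 ≤ ε * S.kin φ + C * mass φ

theorem Sys.bil_comm (e : ℝ) (f g : E → ℝ) : S.bil e f g = S.bil e g f := by
  simp only [Sys.bil, ip_comm (dir _ f)]
  simp only [mul_assoc, mul_comm (f _)]

theorem Sys.kin_nonneg (f : E → ℝ) : 0 ≤ S.kin f :=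
  Finset.sum_nonneg fun _ _ => mass_nonneg _

variable {S}

theorem Sys.Good.integrable_mul (hS : S.Good) (hφ : IsRealTest φ) (hχ : IsRealTest χ) :
    Integrable fun x => S.V x * φ x * χ x := by
  obtain ⟨C, -, hC⟩ := hS.bound 1 one_pos
  refine ((hC φ hφ).1.add (hC χ hχ).1).mono' ((hS.meas.aestronglyMeasurable.mul
    (memLp_test hφ).1).mul (memLp_test hχ).1) (Eventually.of_forall fun x => ?_)
  have h1 : |φ x| * |χ x| ≤ φ x ^ 2 + χ x ^ 2 := by
    nlinarith [sq_nonneg (|φ x| - |χ x|), sq_abs (φ x), sq_abs (χ x), abs_nonneg (φ x),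
      abs_nonneg (χ x)]
  simp only [Real.norm_eq_abs, abs_mul, Pi.add_apply, mul_assoc, Pi.mul_apply, ← mul_add]
  exact mul_le_mul_of_nonneg_left h1 (abs_nonneg _)

theorem Sys.Good.integrable_shift (hS : S.Good) (e : ℝ) (hφ : IsRealTest φ) (hχ : IsRealTest χ) :
    Integrable fun x => (S.V x - e) * φ x * χ x :=
  ((hS.integrable_mul hφ hχ).sub (((memLp_test hφ).integrable_mul (memLp_test hχ)).const_mul e)
    ).congr (Eventually.of_forall fun x => by simp; ring)

theorem Sys.bil_comb (hS : S.Good) (e a b : ℝ) (hφ : IsRealTest φ) (hχ : IsRealTest χ)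
    (hη : IsRealTest η) :
    S.bil e (a • φ + b • χ) η = a * S.bil e φ η + b * S.bil e χ η := by
  have h1 : ∀ j, ip (dir (S.v j) (a • φ + b • χ)) (dir (S.v j) η) =
      a * ip (dir (S.v j) φ) (dir (S.v j) η) + b * ip (dir (S.v j) χ) (dir (S.v j) η) := fun j => by
    rw [ip_congr (dir_comb a b hφ hχ _) (EventuallyEq.refl _ _),
      ip_comb a b (memLp_dir hφ _) (memLp_dir hχ _) (memLp_dir hη _)]
  have h2 : (∫ x, (S.V x - e) * (a • φ + b • χ) x * η x) =
      a * (∫ x, (S.V x - e) * φ x * η x) + b * ∫ x, (S.V x - e) * χ x * η x := by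
    rw [← integral_const_mul, ← integral_const_mul, ← integral_add
      ((hS.integrable_shift e hφ hη).const_mul a) ((hS.integrable_shift e hχ hη).const_mul b)]
    refine integral_congr_ae (Eventually.of_forall fun x => ?_)
    simp only [Pi.add_apply, Pi.smul_apply, smul_eq_mul]
    ring
  simp only [Sys.bil, h1, h2, Finset.sum_add_distrib, ← Finset.mul_sum]
  ring

theorem Sys.bil_comb_self (hS : S.Good) (e a b : ℝ) (hφ : IsRealTest φ) (hχ : IsRealTest χ) :
    S.bil e (a • φ + b • χ) (a • φ + b • χ) =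
      a ^ 2 * S.bil e φ φ + 2 * (a * b) * S.bil e φ χ + b ^ 2 * S.bil e χ χ := by
  have h := isRealTest_comb a b hφ hχ
  rw [S.bil_comb hS e a b hφ hχ h, S.bil_comm e φ (a • φ + b • χ), S.bil_comb hS e a b hφ hχ hφ,
    S.bil_comm e χ (a • φ + b • χ), S.bil_comb hS e a b hφ hχ hχ, S.bil_comm e χ φ]
  ring

theorem Sys.bil_eq_form (hS : S.Good) (e : ℝ) (hφ : IsRealTest φ) :
    S.bil e φ φ = S.form φ - e * mass φ := by
  have hv : Integrable fun x => S.V x * φ x ^ 2 :=
    (hS.integrable_mul hφ hφ).congr (Eventually.of_forall fun x => by ring)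
  have hk : Integrable fun x => (1 / 2 : ℝ) * ∑ j, dir (S.v j) φ x ^ 2 :=
    (integrable_finsetSum _ fun j _ => (memLp_dir hφ (S.v j)).integrable_sq).const_mul _
  have hm := (memLp_test hφ).integrable_sq
  have hsum : S.form φ = (1 / 2 : ℝ) * S.kin φ + ∫ x, S.V x * φ x ^ 2 := by
    rw [Sys.form, integral_add hk hv, integral_const_mul,
      integral_finsetSum _ fun j _ => (memLp_dir hφ (S.v j)).integrable_sq]
    rfl
  have h2 : (∫ x, (S.V x - e) * φ x * φ x) = (∫ x, S.V x * φ x ^ 2) - e * mass φ := by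
    rw [mass, ← integral_const_mul, ← integral_sub hv (hm.const_mul e)]
    refine integral_congr_ae (Eventually.of_forall fun x => ?_)
    ring
  simp only [Sys.bil, h2, ip_self, hsum, Sys.kin]
  ring

theorem Sys.kin_le_of (hS : S.Good) {C : ℝ}
    (hC : ∀ φ, IsRealTest φ → Integrable (fun x => |S.V x| * φ x ^ 2) ∧
      ∫ x, |S.V x| * φ x ^ 2 ≤ 1 / 4 * S.kin φ + C * mass φ) (e : ℝ) {φ : E → ℝ}
    (hφ : IsRealTest φ) :
    S.kin φ ≤ 4 * S.bil e φ φ + (4 * C + 4 * |e|) * mass φ := by
  obtain ⟨hi, hle⟩ := hC φ hφ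
  have hv : -(∫ x, |S.V x| * φ x ^ 2) ≤ ∫ x, S.V x * φ x ^ 2 := by
    rw [← integral_neg]
    refine integral_mono hi.neg ((hS.integrable_mul hφ hφ).congr
      (Eventually.of_forall fun x => by ring)) fun x => ?_
    simp only [Pi.neg_apply]
    nlinarith [neg_abs_le (S.V x), sq_nonneg (φ x)]
  have h2 : S.bil e φ φ = (1 / 2 : ℝ) * S.kin φ + (∫ x, S.V x * φ x ^ 2) - e * mass φ := by
    rw [Sys.bil_eq_form hS e hφ, Sys.form, integral_add
      ((integrable_finsetSum _ fun j _ => (memLp_dir hφ (S.v j)).integrable_sq).const_mul _)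
      ((hS.integrable_mul hφ hφ).congr (Eventually.of_forall fun x => by ring)),
      integral_const_mul,
      integral_finsetSum _ fun j _ => (memLp_dir hφ (S.v j)).integrable_sq]
    rfl
  have := mul_le_mul_of_nonneg_right (le_abs_self e) (mass_nonneg φ)
  linarith

theorem Sys.kin_le (hS : S.Good) :
    ∃ C : ℝ, 0 ≤ C ∧ ∀ (e : ℝ) φ, IsRealTest φ →
      S.kin φ ≤ 4 * S.bil e φ φ + (C + 4 * |e|) * mass φ := by
  obtain ⟨C, hC0, hC⟩ := hS.bound (1 / 4) (by norm_num)
  exact ⟨4 * C, by positivity, fun e φ hφ => S.kin_le_of hS hC e hφ⟩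

variable (S)

/-- A sequence of tests converging with the derivatives to `f` and `D`. -/
structure Sys.Approx (φ : ℕ → E → ℝ) (f : E → ℝ) (D : ι → E → ℝ) : Prop where
  test : ∀ k, IsRealTest (φ k)
  memLp : MemLp f 2
  memLp_grad : ∀ j, MemLp (D j) 2
  value : Tendsto (fun k => mass (φ k - f)) atTop (𝓝 0)
  grad : ∀ j, Tendsto (fun k => mass (dir (S.v j) (φ k) - D j)) atTop (𝓝 0)

omit [Fintype ι] in
theorem Sys.Approx.const (hη : IsRealTest η) :
    S.Approx (fun _ => η) η fun j => dir (S.v j) η :=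
  ⟨fun _ => hη, memLp_test hη, fun _ => memLp_dir hη _, tendsto_const_mass η,
    fun _ => tendsto_const_mass _⟩

variable {S} {φs χs : ℕ → E → ℝ} {f g : E → ℝ} {D D' : ι → E → ℝ}

/-- The potential term passes to the limit. -/
theorem Sys.Approx.potential (h : S.Approx φs f D) (hS : S.Good) :
    Integrable (fun x => |S.V x| * f x ^ 2) ∧
      Tendsto (fun k => ∫ x, |S.V x| * (φs k x - f x) ^ 2) atTop (𝓝 0) := by
  obtain ⟨C, hC0, hC⟩ := hS.bound 1 one_pos
  set a : ℕ → ℝ := fun k =>
    2 * ∑ j, mass (dir (S.v j) (φs k) - D j) + C * (2 * mass (φs k - f)) with ha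
  have ha0 : Tendsto a atTop (𝓝 0) := by
    have := ((tendsto_finsetSum Finset.univ fun j _ => h.grad j).const_mul 2).add
      ((h.value.const_mul 2).const_mul C)
    simpa using this
  have hpair : ∀ j k, ∫ x, |S.V x| * (φs j x - φs k x) ^ 2 ≤ a j + a k := by
    intro j k
    refine (hC _ (isRealTest_sub (h.test j) (h.test k))).2.trans ?_
    have h1 : S.kin (φs j - φs k) ≤ ∑ i, (2 * mass (dir (S.v i) (φs j) - D i) +
        2 * mass (dir (S.v i) (φs k) - D i)) := by
      refine Finset.sum_le_sum fun i _ => ?_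
      rw [mass_congr (dir_sub (h.test j) (h.test k) _), mass_sub_comm (dir (S.v i) (φs k)) (D i)]
      exact mass_sub_le (memLp_dir (h.test j) _) (h.memLp_grad i) (memLp_dir (h.test k) _)
    have h2 := mass_sub_le (memLp_test (h.test j)) h.memLp (memLp_test (h.test k))
    rw [mass_sub_comm f] at h2
    rw [Finset.sum_add_distrib, ← Finset.mul_sum, ← Finset.mul_sum] at h1
    simp only [ha]
    nlinarith
  obtain ⟨σ, hσ, hae⟩ := exists_subseq_ae (fun k => memLp_test (h.test k)) h.memLp h.value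
  have hm : ∀ k, AEMeasurable (φs k) := fun k => (memLp_test (h.test k)).1.aemeasurable
  have hfat : ∀ k, ∫⁻ x, ENNReal.ofReal (|S.V x| * (φs k x - f x) ^ 2) ≤ ENNReal.ofReal (a k) := by
    intro k
    have hl : Tendsto (fun j => ENNReal.ofReal (a k + a (σ j))) atTop (𝓝 (ENNReal.ofReal (a k))) :=
      ENNReal.tendsto_ofReal (by simpa using (ha0.comp hσ.tendsto_atTop).const_add (a k))
    calc ∫⁻ x, ENNReal.ofReal (|S.V x| * (φs k x - f x) ^ 2)
        = ∫⁻ x, liminf (fun j => ENNReal.ofReal (|S.V x| * (φs k x - φs (σ j) x) ^ 2)) atTop := by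
          refine lintegral_congr_ae ?_
          filter_upwards [hae] with x hx
          exact ((ENNReal.tendsto_ofReal (((tendsto_const_nhds.sub hx).pow 2).const_mul
            |S.V x|)).liminf_eq).symm
      _ ≤ liminf (fun j => ∫⁻ x, ENNReal.ofReal (|S.V x| * (φs k x - φs (σ j) x) ^ 2)) atTop :=
          lintegral_liminf_le' fun j =>
            (hS.meas.norm.aemeasurable.mul (((hm k).sub (hm (σ j))).pow_const 2)).ennreal_ofReal
      _ ≤ liminf (fun j => ENNReal.ofReal (a k + a (σ j))) atTop := by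
          refine liminf_le_liminf (Eventually.of_forall fun j => ?_)
          have hi : Integrable fun x => |S.V x| * (φs k x - φs (σ j) x) ^ 2 :=
            (hC _ (isRealTest_sub (h.test k) (h.test (σ j)))).1
          rw [← ofReal_integral_eq_lintegral_ofReal hi
            (Eventually.of_forall fun x => by positivity)]
          exact ENNReal.ofReal_le_ofReal (hpair k (σ j))
      _ = _ := hl.liminf_eq
  have hint : ∀ k, Integrable fun x => |S.V x| * (φs k x - f x) ^ 2 := fun k => by
    refine ⟨(hS.meas.norm.aemeasurable.mul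
      (((hm k).sub h.memLp.1.aemeasurable).pow_const 2)).aestronglyMeasurable, ?_⟩
    rw [hasFiniteIntegral_iff_ofReal (Eventually.of_forall fun x => by positivity)]
    exact (hfat k).trans_lt ENNReal.ofReal_lt_top
  refine ⟨?_, squeeze_zero (fun k => integral_nonneg fun x => by positivity) (fun k => ?_) ha0⟩
  · refine (((hC _ (h.test 0)).1.const_mul 2).add ((hint 0).const_mul 2)).mono'
      (hS.meas.norm.aemeasurable.mul
        (h.memLp.1.aemeasurable.pow_const 2)).aestronglyMeasurable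
      (Eventually.of_forall fun x => ?_)
    simp only [Real.norm_eq_abs, abs_mul, abs_abs, Pi.add_apply, abs_of_nonneg (sq_nonneg (f x))]
    nlinarith [mul_nonneg (abs_nonneg (S.V x)) (sq_nonneg (2 * φs 0 x - f x))]
  · have h0 : 0 ≤ a k := by
      have := mass_nonneg (φs k - f)
      have := Finset.sum_nonneg fun j (_ : j ∈ Finset.univ) =>
        mass_nonneg (dir (S.v j) (φs k) - D j)
      simp only [ha]; positivity
    rw [← ENNReal.ofReal_le_ofReal_iff h0, ofReal_integral_eq_lintegral_ofReal (hint k)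
      (Eventually.of_forall fun x => by positivity)]
    exact hfat k

/-- The limit of the bilinear form. -/
def Sys.bilLim (S : Sys E ι) (e : ℝ) (f g : E → ℝ) (D D' : ι → E → ℝ) : ℝ :=
  (1 / 2 : ℝ) * ∑ j, ip (D j) (D' j) + ∫ x, (S.V x - e) * f x * g x

/-- The bilinear form passes to the limit. -/
theorem Sys.Approx.tendsto_bil (h : S.Approx φs f D) (h' : S.Approx χs g D') (hS : S.Good)
    (e : ℝ) :
    Integrable (fun x => (S.V x - e) * f x * g x) ∧
      Tendsto (fun k => S.bil e (φs k) (χs k)) atTop (𝓝 (S.bilLim e f g D D')) := by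
  obtain ⟨hf, hf'⟩ := h.potential hS
  obtain ⟨hg, hg'⟩ := h'.potential hS
  set w : E → ℝ := fun x => √|S.V x| with hw
  set w' : E → ℝ := fun x => if S.V x < 0 then -√|S.V x| else √|S.V x| with hw'
  have hwm : Measurable w := hS.meas.norm.sqrt
  have hwm' : Measurable w' := Measurable.ite (measurableSet_lt hS.meas measurable_const)
    hwm.neg hwm
  have hsq : ∀ x, w x ^ 2 = |S.V x| ∧ w' x ^ 2 = |S.V x| ∧ w x * w' x = S.V x := fun x => by
    have h0 := Real.mul_self_sqrt (abs_nonneg (S.V x))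
    simp only [hw, hw']
    split_ifs with hx <;>
      refine ⟨by rw [Real.sq_sqrt (abs_nonneg _)], by rw [sq]; linarith, ?_⟩
    · rw [mul_neg, h0, abs_of_neg hx, neg_neg]
    · rw [h0, abs_of_nonneg (not_lt.1 hx)]
  have mem : ∀ {u : E → ℝ} {z : E → ℝ}, AEStronglyMeasurable u volume → Measurable z →
      (∀ x, z x ^ 2 = |S.V x|) → Integrable (fun x => |S.V x| * u x ^ 2) →
      MemLp (fun x => z x * u x) 2 := by
    intro u z hu hz hz2 hi
    refine (memLp_two_iff_integrable_sq (hz.aestronglyMeasurable.mul hu)).2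
      (hi.congr (Eventually.of_forall fun x => ?_))
    simp only [Pi.mul_apply, mul_pow, hz2]
  obtain ⟨C, -, hC⟩ := hS.bound 1 one_pos
  have m1 := fun k => mem (memLp_test (h.test k)).1 hwm (fun x => (hsq x).1) (hC _ (h.test k)).1
  have m2 := fun k => mem (memLp_test (h'.test k)).1 hwm' (fun x => (hsq x).2.1) (hC _ (h'.test k)).1
  have m3 := mem h.memLp.1 hwm (fun x => (hsq x).1) hf
  have m4 := mem h'.memLp.1 hwm' (fun x => (hsq x).2.1) hg
  have t1 : Tendsto (fun k => mass ((fun x => w x * φs k x) - fun x => w x * f x)) atTop (𝓝 0) := by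
    refine hf'.congr fun k => integral_congr_ae (Eventually.of_forall fun x => ?_)
    simp only [Pi.sub_apply, ← mul_sub, mul_pow, (hsq x).1]
  have t2 : Tendsto (fun k => mass ((fun x => w' x * χs k x) - fun x => w' x * g x)) atTop
      (𝓝 0) := by
    refine hg'.congr fun k => integral_congr_ae (Eventually.of_forall fun x => ?_)
    simp only [Pi.sub_apply, ← mul_sub, mul_pow, (hsq x).2.1]
  have hmul : ∀ (u z : E → ℝ) (x : E), w x * u x * (w' x * z x) = S.V x * u x * z x :=
    fun u z x => by rw [show w x * u x * (w' x * z x) = w x * w' x * u x * z x by ring, (hsq x).2.2]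
  have hVi : Integrable fun x => S.V x * f x * g x :=
    (m3.integrable_mul m4).congr (Eventually.of_forall fun x => hmul f g x)
  have hfg := (h.memLp.integrable_mul h'.memLp).const_mul e
  refine ⟨(hVi.sub hfg).congr (Eventually.of_forall fun x => by simp; ring), ?_⟩
  have e1 : (∫ x, (S.V x - e) * f x * g x) =
      ip (fun x => w x * f x) (fun x => w' x * g x) - e * ip f g := by
    simp only [ip, hmul]
    rw [← integral_const_mul, ← integral_sub hVi
      (hfg.congr (Eventually.of_forall fun x => rfl) : Integrable fun x => e * (f x * g x))]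
    refine integral_congr_ae (Eventually.of_forall fun x => ?_)
    ring
  have e2 : ∀ k, (∫ x, (S.V x - e) * φs k x * χs k x) =
      ip (fun x => w x * φs k x) (fun x => w' x * χs k x) - e * ip (φs k) (χs k) := fun k => by
    simp only [ip, hmul]
    have hi : Integrable fun x => e * (φs k x * χs k x) :=
      ((memLp_test (h.test k)).integrable_mul (memLp_test (h'.test k))).const_mul e
    rw [← integral_const_mul, ← integral_sub (hS.integrable_mul (h.test k) (h'.test k)) hi]
    refine integral_congr_ae (Eventually.of_forall fun x => ?_)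
    ring
  simp only [Sys.bil, Sys.bilLim, e1, e2]
  refine ((tendsto_finsetSum Finset.univ fun j _ => tendsto_ip (fun k => memLp_dir (h.test k) _)
    (fun k => memLp_dir (h'.test k) _) (h.memLp_grad j) (h'.memLp_grad j) (h.grad j)
    (h'.grad j)).const_mul _).add ((tendsto_ip m1 m2 m3 m4 t1 t2).sub ?_)
  exact (tendsto_ip (fun k => memLp_test (h.test k)) (fun k => memLp_test (h'.test k)) h.memLp
    h'.memLp h.value h'.value).const_mul e

end Vale.Agent.P363.Exist
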