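import Vale.Agent.P363.Exist.Orb

/-!
P363: gaps of the uncoupled two and three electron problems above their lowest states.
-/

noncomputable section

namespace Vale.Agent.P363.Exist

open MeasureTheory Filter
open scoped BigOperators Topology ENNReal

variable {l eg eu e' : ℝ} {g u : Space → ℝ} {Dg Du : Fin 3 → Space → ℝ}

theorem ae_slot {n : ℕ} (i : Fin n) {P : Space → Prop} (h : ∀ᵐ x, P x) :
    ∀ᵐ x : Cfg n, P (x i) :=
  (Measure.quasiMeasurePreserving_eval (μ := fun _ : Fin n => (volume : Measure Space)) i).ae h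

theorem slotMap_refl {n : ℕ} (σ : Equiv.Perm (Fin n)) (x : Cfg n) :
    slotMap (LinearIsometryEquiv.refl ℝ Space) σ x = x ∘ σ := rfl

theorem slotMap_mirror {n : ℕ} (x : Cfg n) :
    slotMap One.mirrorIso (Equiv.refl (Fin n)) x = fun i => mirror (x i) := by
  funext i; simp [slotMap_apply, One.mirrorIso_apply]

theorem ip_gu (hz : ZeroOrder l g u Dg Du eg eu e') : ip g u = 0 := by
  have h := ip_comp (T := One.mirrorIso.toContinuousLinearEquiv) One.mirrorIso.measurePreserving g u
  have hg : g ∘ One.mirrorIso.toContinuousLinearEquiv =ᵐ[volume] g := by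
    filter_upwards [hz.g_even] with x hx
    simpa [One.mirrorIso_apply] using hx
  have hu : u ∘ One.mirrorIso.toContinuousLinearEquiv =ᵐ[volume] (-1 : ℝ) • u := by
    filter_upwards [hz.u_odd] with x hx
    simpa [One.mirrorIso_apply] using hx
  rw [ip_congr hg hu, ip_smul_right] at h
  linarith

theorem mass_g (hz : ZeroOrder l g u Dg Du eg eu e') : mass g = 1 := hz.g_mass

theorem mass_u (hz : ZeroOrder l g u Dg Du eg eu e') : mass u = 1 := hz.u_mass

theorem uncurry_pair {φ : Cfg 2 → ℝ} (hφ : IsRealTest φ) :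
    Continuous (Function.uncurry fun p q : Space => φ ![p, q]) ∧
      HasCompactSupport (Function.uncurry fun p q : Space => φ ![p, q]) := by
  obtain ⟨K, hK⟩ := hφ.lipschitz
  refine ⟨hK.continuous.comp (by fun_prop), HasCompactSupport.intro
    (hφ.compact.isCompact.image (f := fun x : Cfg 2 => (x 0, x 1)) (by fun_prop)) fun z hz => ?_⟩
  exact image_eq_zero_of_notMem_tsupport (f := φ) (x := ![z.1, z.2]) fun h => hz ⟨_, h, by simp⟩

theorem mass_coef_zero (g : Space → ℝ) (φ : Cfg 2 → ℝ) :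
    mass (coef g 0 φ) = mass fun q => ip g fun p => φ ![p, q] := by
  simp only [mass, coef]
  rw [integral_cfg1]
  simp only [pair_eq_insert_zero]

theorem mass_coef_one (g : Space → ℝ) (φ : Cfg 2 → ℝ) :
    mass (coef g 1 φ) = mass fun p => ip g fun q => φ ![p, q] := by
  simp only [mass, coef]
  rw [integral_cfg1]
  simp only [pair_eq_insert_one]

theorem mass_pair {φ : Cfg 2 → ℝ} (hφ : IsRealTest φ) :
    mass φ = ∫ q : Space, mass fun p => φ ![p, q] :=
  integral_cfg2 (memLp_test hφ).integrable_sq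

/-- Components along one orbital in both slots. -/
theorem pair_single {p : Space → ℝ} (hp : MemLp p 2) (hp1 : mass p = 1) {φ : Cfg 2 → ℝ}
    (hφ : IsRealTest φ) :
    mass (coef p 0 φ) + mass (coef p 1 φ) ≤ mass φ + ip (prod2 p p) φ ^ 2 := by
  have h := two_proj (ortho_single hp hp1) (ortho_single hp hp1) (uncurry_pair hφ).1
    (uncurry_pair hφ).2
  simp only [Fin.sum_univ_one] at h
  rwa [← mass_coef_zero, ← mass_coef_one, ← mass_pair hφ,
    ← ip_prod2_iter hp hp (memLp_test hφ)] at h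

/-- Components along both orbitals in both slots. -/
theorem pair_both (hz : ZeroOrder l g u Dg Du eg eu e') {φ : Cfg 2 → ℝ} (hφ : IsRealTest φ) :
    mass (coef g 0 φ) + mass (coef u 0 φ) + (mass (coef g 1 φ) + mass (coef u 1 φ)) ≤
      mass φ + (ip (prod2 g g) φ ^ 2 + ip (prod2 g u) φ ^ 2 +
        (ip (prod2 u g) φ ^ 2 + ip (prod2 u u) φ ^ 2)) := by
  have ho := ortho_pair hz.g_lim.1 hz.u_lim.1 (mass_g hz) (mass_u hz) (ip_gu hz)
  have h := two_proj ho ho (uncurry_pair hφ).1 (uncurry_pair hφ).2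
  simp only [Fin.sum_univ_two, Matrix.cons_val_zero, Matrix.cons_val_one] at h
  rwa [← mass_coef_zero, ← mass_coef_zero, ← mass_coef_one, ← mass_coef_one, ← mass_pair hφ,
    ← ip_prod2_iter hz.g_lim.1 hz.g_lim.1 (memLp_test hφ),
    ← ip_prod2_iter hz.g_lim.1 hz.u_lim.1 (memLp_test hφ),
    ← ip_prod2_iter hz.u_lim.1 hz.g_lim.1 (memLp_test hφ),
    ← ip_prod2_iter hz.u_lim.1 hz.u_lim.1 (memLp_test hφ)] at h

/-- In one slot both components together are at most the squared norm. -/
theorem slot_le (hz : ZeroOrder l g u Dg Du eg eu e') {m : ℕ} (i : Fin (m + 1))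
    {φ : Cfg (m + 1) → ℝ} (hφ : IsRealTest φ) :
    mass (coef g i φ) + mass (coef u i φ) ≤ mass φ := by
  have ho := ortho_pair hz.g_lim.1 hz.u_lim.1 (mass_g hz) (mass_u hz) (ip_gu hz)
  have hG := (memLp_coef_slot hz.g_lim.1 i hφ).integrable_sq
  have hU := (memLp_coef_slot hz.u_lim.1 i hφ).integrable_sq
  rw [mass_slot i hφ]
  simp only [mass]
  rw [← integral_add hG hU]
  refine integral_mono (hG.add hU) (integrable_slice i (memLp_test hφ).integrable_sq) fun y => ?_
  simpa [coef, Fin.sum_univ_two, mass] using bessel ho (memLp_test (slice_test i hφ y))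

/-- Two electrons in a state without `g ⊗ g` and `u ⊗ u`, with exchange symmetry `σ`. -/
theorem pair_mixed (hz : ZeroOrder l g u Dg Du eg eu e') {σ : ℝ} (hσ : σ ^ 2 = 1) {φ : Cfg 2 → ℝ}
    (hφ : IsRealTest φ) (hgg : ip (prod2 g g) φ = 0) (huu : ip (prod2 u u) φ = 0)
    (hug : ip (prod2 u g) φ = σ * ip (prod2 g u) φ) :
    (e' - eg) * (mass (coef g 0 φ) + mass (coef g 1 φ)) +
      (e' - eu) * (mass (coef u 0 φ) + mass (coef u 1 φ)) ≤
      (e' - eg) * mass φ + (e' - eu) * ip (mix σ g u) φ ^ 2 := by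
  have hg := hz.g_lim.1
  have hu := hz.u_lim.1
  have h1 := pair_single hg (mass_g hz) hφ
  have h2 := pair_both hz hφ
  have hm : ip (mix σ g u) φ ^ 2 = 2 * ip (prod2 g u) φ ^ 2 := by
    rw [mix, ip_comb _ _ (memLp_prod2 hg hu) (memLp_prod2 hu hg) (memLp_test hφ), hug,
      show (√2)⁻¹ * ip (prod2 g u) φ + σ * (√2)⁻¹ * (σ * ip (prod2 g u) φ) =
        (1 + σ ^ 2) * (√2)⁻¹ * ip (prod2 g u) φ by ring, hσ, mul_pow, mul_pow, inv_pow,
      Real.sq_sqrt zero_le_two]
    norm_num
  rw [hgg] at h1 h2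
  rw [huu, hug, mul_pow, hσ, one_mul] at h2
  rw [hm]
  have hb : 0 ≤ e' - eu := by linarith [hz.eu_lt]
  have hab : 0 ≤ eu - eg := by linarith [hz.eg_lt]
  nlinarith [mul_le_mul_of_nonneg_left h1 hab, mul_le_mul_of_nonneg_left h2 hb]

theorem two_lower (hz : ZeroOrder l g u Dg Du eg eu e') {φ : Cfg 2 → ℝ} (hφ : IsRealTest φ) :
    2 * e' * mass φ - ((e' - eg) * (mass (coef g 0 φ) + mass (coef g 1 φ)) +
      (e' - eu) * (mass (coef u 0 φ) + mass (coef u 1 φ))) ≤ ∑ i, oneTerm l i φ := by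
  rw [Fin.sum_univ_two]
  linarith [oneTerm_ge hz 0 hφ, oneTerm_ge hz 1 hφ]

/-- The gap above `g ⊗ g`. -/
theorem gap_ion (hz : ZeroOrder l g u Dg Du eg eu e') {φ : Cfg 2 → ℝ} (hφ : IsRealTest φ) :
    (eu - eg) * (mass φ - ip (prod2 g g) φ ^ 2) ≤ ∑ i, oneTerm l i φ - 2 * eg * mass φ := by
  have h := two_lower hz hφ
  have h1 := mul_le_mul_of_nonneg_left (pair_single hz.g_lim.1 (mass_g hz) hφ)
    (sub_nonneg.2 hz.eg_lt.le)
  have hb : 0 ≤ e' - eu := by linarith [hz.eu_lt]
  have h2 := mul_le_mul_of_nonneg_left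
    (add_le_add (slot_le hz 0 hφ) (slot_le hz 1 hφ)) hb
  nlinarith

/-- The gap above `(g ⊗ u + σ u ⊗ g) / √2`. -/
theorem gap_mixed (hz : ZeroOrder l g u Dg Du eg eu e') {σ : ℝ} (hσ : σ ^ 2 = 1) {φ : Cfg 2 → ℝ}
    (hφ : IsRealTest φ) (hgg : ip (prod2 g g) φ = 0) (huu : ip (prod2 u u) φ = 0)
    (hug : ip (prod2 u g) φ = σ * ip (prod2 g u) φ) :
    (e' - eu) * (mass φ - ip (mix σ g u) φ ^ 2) ≤ ∑ i, oneTerm l i φ - (eg + eu) * mass φ := by
  nlinarith [two_lower hz hφ, pair_mixed hz hσ hφ hgg huu hug]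

theorem anti_ip {φ : Cfg 2 → ℝ} (h : Anti01 (n := 0) φ) (p q : Space → ℝ) :
    ip (prod2 q p) φ = -ip (prod2 p q) φ := by
  rw [ip_swap p q, show φ ∘ slotMap (LinearIsometryEquiv.refl ℝ Space) (Equiv.swap 0 1) =
    (-1 : ℝ) • φ from funext fun x => by simp [slotMap_refl, h x], ip_smul_right]
  ring

theorem parity_ip (hz : ZeroOrder l g u Dg Du eg eu e') {φ : Cfg 2 → ℝ}
    (h : ∀ x, φ (fun i => mirror (x i)) = -φ x) :
    ip (prod2 g g) φ = 0 ∧ ip (prod2 u u) φ = 0 := by
  have key : ∀ (p : Space → ℝ) (s : ℝ), s ^ 2 = 1 → (∀ᵐ x, p (mirror x) = s * p x) →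
      ip (prod2 p p) φ = 0 := by
    intro p s hs hp
    have hT := ip_comp (measurePreserving_slotMap One.mirrorIso (Equiv.refl (Fin 2))) (prod2 p p) φ
    have h1 : prod2 p p ∘ slotMap One.mirrorIso (Equiv.refl (Fin 2)) =ᵐ[volume] prod2 p p := by
      filter_upwards [ae_slot 0 hp, ae_slot 1 hp] with x h0 h1
      simp only [Function.comp_apply, slotMap_mirror, prod2, h0, h1]
      linear_combination (p (x 0) * p (x 1)) * hs
    have h2 : φ ∘ slotMap One.mirrorIso (Equiv.refl (Fin 2)) = (-1 : ℝ) • φ :=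
      funext fun x => by simp [slotMap_mirror, h x]
    rw [ip_congr h1 (EventuallyEq.refl _ _), h2, ip_smul_right] at hT
    linarith
  refine ⟨key g 1 (one_pow 2) ?_, key u (-1) (by norm_num) ?_⟩
  · filter_upwards [hz.g_even] with x hx; rw [hx, one_mul]
  · filter_upwards [hz.u_odd] with x hx; rw [hx, neg_one_mul]

/-- The gap in the antisymmetric sector of two electrons. -/
theorem gap_triplet (hz : ZeroOrder l g u Dg Du eg eu e') {φ : Cfg 2 → ℝ} (hφ : IsRealTest φ)
    (h : Anti01 (n := 0) φ) :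
    (e' - eu) * (mass φ - ip (mix (-1) g u) φ ^ 2) ≤ ∑ i, oneTerm l i φ - (eg + eu) * mass φ :=
  gap_mixed hz (by norm_num) hφ (by linarith [anti_ip h g g]) (by linarith [anti_ip h u u])
    (by linarith [anti_ip h g u])

/-- The gap in the odd singlet sector. -/
theorem gap_singlet (hz : ZeroOrder l g u Dg Du eg eu e') {φ : Cfg 2 → ℝ} (hφ : IsRealTest φ)
    (h : SymmOdd φ) :
    (e' - eu) * (mass φ - ip (mix 1 g u) φ ^ 2) ≤ ∑ i, oneTerm l i φ - (eg + eu) * mass φ := by
  refine gap_mixed hz (one_pow 2) hφ (parity_ip hz h.2).1 (parity_ip hz h.2).2 ?_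
  rw [ip_swap g u, show φ ∘ slotMap (LinearIsometryEquiv.refl ℝ Space) (Equiv.swap 0 1) = φ from
    funext fun x => h.1 x, one_mul]

theorem anti_coef {φ : Cfg 3 → ℝ} (h : Anti01 (n := 1) φ) (g : Space → ℝ) :
    mass (coef g 1 φ) = mass (coef g 0 φ) := by
  have : coef g 1 φ = (-1 : ℝ) • coef g 0 φ := by
    funext y
    have he : ∀ r, φ (Fin.insertNth 1 r y) = -φ (Fin.insertNth 0 r y) := fun r => by
      rw [← h]
      congr 1
      funext j; fin_cases j <;> simp [Fin.insertNth, Fin.succAboveCases] <;> rfl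
    simp only [coef, ip, he, mul_neg, integral_neg, Pi.smul_apply, smul_eq_mul, neg_one_mul]
  rw [this, mass_smul]
  norm_num

theorem slice_anti {φ : Cfg 3 → ℝ} (h : Anti01 (n := 1) φ) (r : Space) :
    Anti01 (n := 0) fun w : Cfg 2 => φ (Fin.insertNth 2 r w) := fun w => by
  show φ (Fin.insertNth 2 r (w ∘ Equiv.swap 0 1)) = -φ (Fin.insertNth 2 r w)
  rw [← h]
  congr 1
  funext j; fin_cases j <;> rfl

/-- The uncoupled three-electron gap. -/
theorem gap_three (hz : ZeroOrder l g u Dg Du eg eu e') {φ : Cfg 3 → ℝ} (hφ : IsRealTest φ)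
    (h : Anti01 (n := 1) φ) :
    min (eu - eg) (e' - eu) * (mass φ - ip (zero3 g u) φ ^ 2) ≤
      ∑ i, oneTerm l i φ - (2 * eg + eu) * mass φ := by
  have hg := hz.g_lim.1
  have hu := hz.u_lim.1
  set G2 := mix (-1) g u with hG2
  have hG2m : MemLp G2 2 := memLp_mix _ hg hu
  have hG21 : mass G2 = 1 := mass_mix (by norm_num) hg hu (mass_g hz) (mass_u hz) (ip_gu hz)
  have hφm := memLp_test hφ
  set c : Space → ℝ := fun r => ip G2 fun w => φ (Fin.insertNth 2 r w) with hc
  obtain ⟨hF, hFs⟩ := uncurry_flip (uncurry_slice 2 hφ).1 (uncurry_slice 2 hφ).2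
  have hcm : MemLp c 2 := memLp_coef hF hFs hG2m
  have hN2 : mass φ = ∫ r, mass fun w : Cfg 2 => φ (Fin.insertNth 2 r w) := by
    rw [mass_slot 2 hφ]
    simp only [mass]
    have hp : Integrable (Function.uncurry fun (y : Cfg 2) r => φ (Fin.insertNth 2 r y) ^ 2)
        ((volume : Measure (Cfg 2)).prod volume) :=
      (hF.memLp_of_hasCompactSupport (p := 2) hFs).integrable_sq
    exact integral_integral_swap hp
  have hG3 : ip (zero3 g u) φ = ip g c := by
    have hz3 : MemLp (zero3 g u) 2 := by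
      have e : zero3 g u = (√2)⁻¹ • prod3 g u g + (-(√2)⁻¹) • prod3 u g g := by
        funext x; simp [zero3, div_eq_inv_mul]; ring
      rw [e]
      exact ((memLp_prod3 hg hu hg).const_smul _).add ((memLp_prod3 hu hg hg).const_smul _)
    have hp : Integrable (Function.uncurry fun (y : Cfg 2) r =>
        g r * (G2 y * φ (Fin.insertNth 2 r y))) ((volume : Measure (Cfg 2)).prod volume) := by
      have := (memLp_tensor hG2m hg).integrable_mul (hF.memLp_of_hasCompactSupport (p := 2) hFs)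
      exact this.congr (Eventually.of_forall fun z => by
        simp only [Pi.mul_apply, Function.uncurry]; ring)
    rw [ip, integral_insertNth 2 (show Integrable fun x => zero3 g u x * φ x from
      hz3.integrable_mul hφm)]
    simp only [hc, ip, ← integral_const_mul]
    rw [← integral_integral_swap hp]
    refine integral_congr_ae (Eventually.of_forall fun y =>
      integral_congr_ae (Eventually.of_forall fun r => ?_))
    have e0 : (Fin.insertNth 2 r y : Cfg 3) 0 = y 0 := rfl
    have e1 : (Fin.insertNth 2 r y : Cfg 3) 1 = y 1 := rfl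
    have e2 : (Fin.insertNth 2 r y : Cfg 3) 2 = r := rfl
    simp only [hG2, mix, Pi.add_apply, Pi.smul_apply, smul_eq_mul, zero3, prod3, prod2, e0, e1, e2]
    ring
  have hA : ∀ p : Space → ℝ, MemLp p 2 →
      mass (coef p 0 φ) = ∫ r, mass (coef p 0 fun w : Cfg 2 => φ (Fin.insertNth 2 r w)) ∧
      Integrable fun r => mass (coef p 0 fun w : Cfg 2 => φ (Fin.insertNth 2 r w)) := by
    intro p hp
    have hi := (memLp_coef_slot hp 0 hφ).integrable_sq
    have e : (fun r => mass (coef p 0 fun w : Cfg 2 => φ (Fin.insertNth 2 r w))) =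
        fun r => ∫ q : Space, coef p 0 φ ![q, r] ^ 2 := by
      funext r
      rw [mass_coef_zero]
      simp only [mass, coef, triple_eq]
    refine ⟨?_, ?_⟩
    · rw [mass, integral_cfg2 hi, e]
    · rw [e]
      have h2 := integrable_slice 0 hi
      have h3 := (((volume_preserving_funUnique (Fin 1) Space).symm _).integrable_comp_emb
        (MeasurableEquiv.measurableEmbedding _)).2 h2
      simp only [Function.comp_def] at h3
      simp only [pair_eq_insert_zero]
      exact h3
  obtain ⟨hAg, hAgi⟩ := hA g hg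
  obtain ⟨hAu, hAui⟩ := hA u hu
  have hNi : Integrable fun r => mass fun w : Cfg 2 => φ (Fin.insertNth 2 r w) :=
    (hF.memLp_of_hasCompactSupport (p := 2) hFs).integrable_sq.integral_prod_right
  have hT : (e' - eg) * (2 * mass (coef g 0 φ)) + (e' - eu) * (2 * mass (coef u 0 φ)) ≤
      (e' - eg) * mass φ + (e' - eu) * mass c := by
    rw [hAg, hAu, hN2, mass]
    simp only [← integral_const_mul]
    rw [← integral_add ((hAgi.const_mul _).const_mul _) ((hAui.const_mul _).const_mul _),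
      ← integral_add (hNi.const_mul _) (hcm.integrable_sq.const_mul _)]
    refine integral_mono (((hAgi.const_mul _).const_mul _).add ((hAui.const_mul _).const_mul _))
      ((hNi.const_mul _).add (hcm.integrable_sq.const_mul _)) fun r => ?_
    have ht := rest_test 2 hφ r
    have ha := slice_anti h r
    have hm := pair_mixed hz (σ := -1) (by norm_num) ht (by linarith [anti_ip ha g g])
      (by linarith [anti_ip ha u u]) (by linarith [anti_ip ha g u])
    have hsym : ∀ p : Space → ℝ, mass (coef p 1 fun w : Cfg 2 => φ (Fin.insertNth 2 r w)) =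
        mass (coef p 0 fun w : Cfg 2 => φ (Fin.insertNth 2 r w)) := fun p => by
      rw [mass_coef_one, mass_coef_zero]
      refine (mass_congr (f' := (-1 : ℝ) • fun q => ip p fun s => φ (Fin.insertNth 2 r ![s, q]))
        (Eventually.of_forall fun q => ?_)).trans (by rw [mass_smul]; norm_num)
      simp only [ip, Pi.smul_apply, smul_eq_mul, neg_one_mul, ← integral_neg]
      refine integral_congr_ae (Eventually.of_forall fun s => ?_)
      have h1 : φ (Fin.insertNth 2 r ((![s, q] : Cfg 2) ∘ Equiv.swap 0 1)) =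
          -φ (Fin.insertNth 2 r ![s, q]) := ha ![s, q]
      have e : (![s, q] : Cfg 2) ∘ Equiv.swap 0 1 = ![q, s] := by
        funext j; fin_cases j <;> simp
      rw [e] at h1
      simp only [h1]; ring
    rw [hsym, hsym] at hm
    simp only [hc]
    linarith
  have h2 := two_proj (ortho_single hG2m hG21) (ortho_single hg (mass_g hz)) hF hFs
  simp only [Fin.sum_univ_one] at h2
  rw [← hN2, ← hc, ← hG3] at h2
  change mass c + mass (coef g 2 φ) ≤ _ at h2
  have hcle : mass c ≤ mass φ := by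
    rw [hN2, mass]
    refine integral_mono hcm.integrable_sq hNi fun r => ?_
    have := bessel (ortho_single hG2m hG21) (memLp_test (rest_test 2 hφ r))
    simpa [hc] using this
  have hs := slot_le hz 2 hφ
  have hU0 := mass_nonneg (coef u 2 φ)
  have hb : 0 ≤ e' - eu := by linarith [hz.eu_lt]
  have hmin1 := min_le_left (eu - eg) (e' - eu)
  have hmin2 := min_le_right (eu - eg) (e' - eu)
  have hmin0 : 0 ≤ min (eu - eg) (e' - eu) := le_min (by linarith [hz.eg_lt]) hb
  rw [Fin.sum_univ_three]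
  have g0 := oneTerm_ge hz 0 hφ
  have g1 := oneTerm_ge hz 1 hφ
  have g2 := oneTerm_ge hz 2 hφ
  rw [anti_coef h, anti_coef h] at g1
  have k1 := mul_le_mul_of_nonneg_right hmin2 (sub_nonneg.2 hcle)
  have k2 := mul_le_mul_of_nonneg_right hmin1
    (show 0 ≤ mass φ - mass (coef g 2 φ) by linarith)
  have k3 := mul_le_mul_of_nonneg_left hs hb
  have k4 := mul_le_mul_of_nonneg_left h2 hmin0
  nlinarith

end Vale.Agent.P363.Exist
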