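import Vale.Agent.P363.Exist.Sym
import Vale.Agent.P363.Exist.One.Centres
import Vale.Agent.P349.Coulomb

/-!
P363: the scaled molecule as a quadratic form, with bounds uniform for weak repulsion, and its
symmetries.
-/

noncomputable section

namespace Vale.Agent.P363.Exist

open MeasureTheory Filter
open scoped BigOperators Topology ENNReal

variable {n : ℕ}

/-- The coordinate directions of `n` electrons. -/
def dirs (p : Fin n × Fin 3) : Cfg n := Pi.single p.1 (unit3 p.2)

/-- The scaled molecule. -/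
def molSys (n : ℕ) (l lam : ℝ) : Sys (Cfg n) (Fin n × Fin 3) := ⟨dirs, molPot l lam⟩

/-- One electron. -/
def oneSys (l : ℝ) : Sys Space (Fin 3) := ⟨unit3, fun x => -attract l x⟩

theorem dir_dirs (p : Fin n × Fin 3) (φ : Cfg n → ℝ) :
    dir (dirs p) φ = slotDeriv p.1 p.2 φ := rfl

theorem dir_unit3 (a : Fin 3) (φ : Space → ℝ) : dir (unit3 a) φ = deriv3 a φ := rfl

theorem form_molSys (l lam : ℝ) (φ : Cfg n → ℝ) : (molSys n l lam).form φ = formQ l lam φ := by
  simp only [Sys.form, molSys, formQ, Fintype.sum_prod_type, dir_dirs]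

theorem form_oneSys (l : ℝ) (φ : Space → ℝ) : (oneSys l).form φ = formOne l φ := by
  simp only [Sys.form, oneSys, formOne, dir_unit3, neg_mul, sub_eq_add_neg]

theorem attract_eq (l : ℝ) (x : Space) : attract l x = One.pot l x := by
  simp [One.pot, One.centre, attract, nuc, Fin.sum_univ_two, sub_neg_eq_add]

theorem attract_nonneg (l : ℝ) (x : Space) : 0 ≤ attract l x := by unfold attract; positivity

theorem measurable_attract (l : ℝ) : Measurable (attract l) := by unfold attract; fun_prop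

theorem measurable_molPot (l lam : ℝ) : Measurable (molPot l lam : Cfg n → ℝ) := by
  unfold molPot attract; fun_prop

theorem isTest1 {φ : Space → ℝ} (hφ : IsRealTest φ) : One.IsTest1 φ := ⟨hφ.lipschitz, hφ.compact⟩

theorem kin_oneSys (l : ℝ) {φ : Space → ℝ} (hφ : IsRealTest φ) :
    (oneSys l).kin φ = One.kin φ := by
  rw [Sys.kin, One.kin, integral_finsetSum _ fun a _ => One.integrable_deriv3_sq (isTest1 hφ) a]
  rfl

theorem oneSys_bound (l : ℝ) : ∀ ε : ℝ, 0 < ε → ∃ C : ℝ, 0 ≤ C ∧ ∀ φ, IsRealTest φ →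
    Integrable (fun x => |(oneSys l).V x| * φ x ^ 2) ∧
      ∫ x, |(oneSys l).V x| * φ x ^ 2 ≤ ε * (oneSys l).kin φ + C * mass φ := by
  intro ε hε
  refine ⟨1 / ε, by positivity, fun φ hφ => ?_⟩
  obtain ⟨hi, hle⟩ := One.potBound l ε hε φ (isTest1 hφ)
  have he : (fun x => |(oneSys l).V x| * φ x ^ 2) = fun x => One.pot l x * φ x ^ 2 := by
    funext x
    simp only [oneSys, abs_neg, attract_eq, abs_of_nonneg (One.pot_nonneg l x)]
  rw [he, kin_oneSys l hφ, one_div_mul_eq_div]
  exact ⟨hi, hle⟩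

theorem oneSys_good (l : ℝ) : (oneSys l).Good :=
  ⟨(measurable_attract l).neg, oneSys_bound l⟩

/-- A Coulomb singularity in a slot against a real test function. -/
theorem coulomb_real {φ : Cfg n → ℝ} (hφ : IsRealTest φ) {i : Fin n} (L : Cfg n →L[ℝ] Space)
    (hL : ∀ a, L (P349.slotVec i a) = EuclideanSpace.single a (1 : ℝ)) (p : Space) :
    Integrable (fun x => φ x ^ 2 / ‖L x - p‖) ∧ ∀ α : ℝ, 0 < α →
      ∫ x, φ x ^ 2 / ‖L x - p‖ ≤
        α * ∑ q : Fin n × Fin 3, mass (dir (dirs q) φ) + 1 / (4 * α) * mass φ := by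
  obtain ⟨K, hK⟩ := hφ.lipschitz
  have hc : HasCompactSupport fun x => (φ x : ℂ) :=
    hφ.compact.comp_left (g := fun t : ℝ => (t : ℂ)) Complex.ofReal_zero
  have hl : LipschitzWith K fun x => (φ x : ℂ) := by
    have := Complex.isometry_ofReal.lipschitz.comp hK
    simpa [Function.comp_def] using this
  obtain ⟨hi, hle⟩ := P349.coulomb_slot hl hc L hL p
  have hn : ∀ x, ‖(φ x : ℂ)‖ ^ 2 = φ x ^ 2 := fun x => by
    rw [Complex.norm_real, Real.norm_eq_abs, sq_abs]
  simp only [hn] at hi hle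
  refine ⟨hi, fun α hα => (hle α hα).trans (add_le_add ?_ le_rfl)⟩
  refine mul_le_mul_of_nonneg_left ?_ hα.le
  have hg : ∀ᵐ x, P349.gradSq i (fun y => (φ y : ℂ)) x = ∑ a, dir (dirs (i, a)) φ x ^ 2 := by
    filter_upwards [hK.ae_differentiableAt] with x hx
    refine Finset.sum_congr rfl fun a _ => ?_
    have := (Complex.ofRealCLM.hasFDerivAt.comp x hx.hasFDerivAt).fderiv
    rw [Function.comp_def] at this
    simp only [Complex.ofRealCLM_apply] at this
    rw [this]
    simp [dir, dirs, unit3]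
  rw [integral_congr_ae hg,
    integral_finsetSum _ fun a _ => (memLp_dir hφ (dirs (i, a))).integrable_sq,
    Fintype.sum_prod_type]
  exact Finset.single_le_sum
    (f := fun j => ∑ a, mass (dir (dirs (j, a)) φ))
    (fun j _ => Finset.sum_nonneg fun a _ => mass_nonneg _) (Finset.mem_univ i)

/-- A majorant of all scaled potentials with coupling at most one. -/
def molMajor (l : ℝ) (x : Cfg n) : ℝ :=
  (∑ i, attract l (x i)) + ∑ i, ∑ k ∈ Finset.Ioi i, 1 / ‖x i - x k‖

theorem abs_molPot_le {l lam : ℝ} (h0 : 0 ≤ lam) (h1 : lam ≤ 1) (x : Cfg n) :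
    |molPot l lam x| ≤ molMajor l x := by
  have hA : 0 ≤ ∑ i, attract l (x i) := Finset.sum_nonneg fun i _ => attract_nonneg l _
  have hR : 0 ≤ ∑ i, ∑ k ∈ Finset.Ioi i, 1 / ‖x i - x k‖ :=
    Finset.sum_nonneg fun i _ => Finset.sum_nonneg fun k _ => by positivity
  have := mul_le_mul_of_nonneg_right h1 hR
  simp only [molMajor, molPot, abs_le]
  constructor <;> nlinarith [mul_nonneg h0 hR]

theorem major_bound (n : ℕ) (l : ℝ) : ∀ ε : ℝ, 0 < ε → ∃ C : ℝ, 0 ≤ C ∧
    ∀ φ : Cfg n → ℝ, IsRealTest φ → Integrable (fun x => molMajor l x * φ x ^ 2) ∧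
      ∫ x, molMajor l x * φ x ^ 2 ≤
        ε * (∑ q : Fin n × Fin 3, mass (dir (dirs q) φ)) + C * mass φ := by
  intro ε hε
  set N : ℝ := 2 * n + n * n + 1 with hN
  have hN0 : 0 < N := by positivity
  refine ⟨N * (1 / (4 * (ε / N))), by positivity, fun φ hφ => ?_⟩
  set α := ε / N with hα
  set B := α * (∑ q : Fin n × Fin 3, mass (dir (dirs q) φ)) + 1 / (4 * α) * mass φ with hB
  have hB0 : 0 ≤ B := by
    have := Finset.sum_nonneg fun q (_ : q ∈ (Finset.univ : Finset (Fin n × Fin 3))) =>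
      mass_nonneg (dir (dirs q) φ)
    have := mass_nonneg φ
    rw [hB]; positivity
  have hA : ∀ i : Fin n, Integrable (fun x => attract l (x i) * φ x ^ 2) ∧
      ∫ x, attract l (x i) * φ x ^ 2 ≤ 2 * B := by
    intro i
    obtain ⟨hp, hp'⟩ := coulomb_real hφ (P349.slotProj i) (P349.slotProj_slotVec i) (nuc l)
    obtain ⟨hm, hm'⟩ := coulomb_real hφ (P349.slotProj i) (P349.slotProj_slotVec i) (-nuc l)
    simp only [P349.slotProj_apply, sub_neg_eq_add] at hp hp' hm hm'
    have he : (fun x : Cfg n => attract l (x i) * φ x ^ 2) =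
        fun x => φ x ^ 2 / ‖x i - nuc l‖ + φ x ^ 2 / ‖x i + nuc l‖ := by
      funext x; simp only [attract]; ring
    rw [he]
    refine ⟨hp.add hm, ?_⟩
    rw [integral_add hp hm]
    linarith [hp' α (by positivity), hm' α (by positivity)]
  have hR : ∀ i : Fin n, ∀ k ∈ Finset.Ioi i, Integrable (fun x => 1 / ‖x i - x k‖ * φ x ^ 2) ∧
      ∫ x, 1 / ‖x i - x k‖ * φ x ^ 2 ≤ B := by
    intro i k hk
    obtain ⟨h, h'⟩ := coulomb_real hφ (P349.slotProj i - P349.slotProj k)
      (P349.slotDiff_slotVec (ne_of_gt (Finset.mem_Ioi.1 hk))) 0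
    simp only [sub_apply, P349.slotProj_apply, sub_zero] at h h'
    have he : (fun x : Cfg n => 1 / ‖x i - x k‖ * φ x ^ 2) =
        fun x => φ x ^ 2 / ‖x i - x k‖ := by funext x; ring
    rw [he]
    exact ⟨h, h' α (by positivity)⟩
  have hsum : (fun x => molMajor l x * φ x ^ 2) = fun x =>
      (∑ i, attract l (x i) * φ x ^ 2) + ∑ i, ∑ k ∈ Finset.Ioi i, 1 / ‖x i - x k‖ * φ x ^ 2 := by
    funext x
    simp only [molMajor, add_mul, Finset.sum_mul]
  have i1 := integrable_finsetSum Finset.univ fun i _ => (hA i).1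
  have i2 := integrable_finsetSum Finset.univ fun i _ =>
    integrable_finsetSum (Finset.Ioi i) fun k hk => (hR i k hk).1
  rw [hsum]
  refine ⟨i1.add i2, ?_⟩
  rw [integral_add i1 i2, integral_finsetSum _ fun i _ => (hA i).1,
    integral_finsetSum _ fun i _ => integrable_finsetSum _ fun k hk => (hR i k hk).1]
  refine (add_le_add (Finset.sum_le_sum fun i _ => (hA i).2)
    (Finset.sum_le_sum (g := fun _ : Fin n => (n : ℝ) * B) fun i _ => ?_)).trans ?_
  · rw [integral_finsetSum _ fun k hk => (hR i k hk).1]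
    refine (Finset.sum_le_card_nsmul _ _ B fun k hk => (hR i k hk).2).trans ?_
    rw [nsmul_eq_mul]
    refine mul_le_mul_of_nonneg_right ?_ hB0
    exact_mod_cast (Finset.card_le_univ _).trans_eq (Fintype.card_fin n)
  · simp only [Finset.sum_const, Finset.card_univ, Fintype.card_fin, nsmul_eq_mul]
    have e : N * B = ε * (∑ q : Fin n × Fin 3, mass (dir (dirs q) φ)) +
        N * (1 / (4 * (ε / N))) * mass φ := by
      rw [hB, hα]; field_simp
    calc (n : ℝ) * (2 * B) + n * (n * B) ≤ N * B := by rw [hN]; linarith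
      _ = _ := e

theorem molSys_bound (n : ℕ) (l : ℝ) : ∀ ε : ℝ, 0 < ε → ∃ C : ℝ, 0 ≤ C ∧
    ∀ lam ∈ Set.Icc (0 : ℝ) 1, ∀ φ : Cfg n → ℝ, IsRealTest φ →
      Integrable (fun x => |(molSys n l lam).V x| * φ x ^ 2) ∧
      ∫ x, |(molSys n l lam).V x| * φ x ^ 2 ≤ ε * (molSys n l lam).kin φ + C * mass φ := by
  intro ε hε
  obtain ⟨C, hC0, hC⟩ := major_bound n l ε hε
  refine ⟨C, hC0, fun lam hlam φ hφ => ?_⟩
  obtain ⟨hi, hle⟩ := hC φ hφ
  have hp : ∀ x, |molPot l lam x| * φ x ^ 2 ≤ molMajor l x * φ x ^ 2 := fun x =>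
    mul_le_mul_of_nonneg_right (abs_molPot_le hlam.1 hlam.2 x) (sq_nonneg _)
  have hint : Integrable fun x => |molPot l lam x| * φ x ^ 2 := by
    refine hi.mono' ((measurable_molPot l lam).norm.aemeasurable.mul
      ((memLp_test hφ).1.aemeasurable.pow_const 2)).aestronglyMeasurable
      (Eventually.of_forall fun x => ?_)
    rw [Real.norm_eq_abs, abs_of_nonneg (by positivity)]
    exact hp x
  exact ⟨hint, (integral_mono hint hi hp).trans hle⟩

theorem molSys_good (n : ℕ) (l : ℝ) {lam : ℝ} (h : lam ∈ Set.Icc (0 : ℝ) 1) :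
    (molSys n l lam).Good := by
  refine ⟨measurable_molPot l lam, fun ε hε => ?_⟩
  obtain ⟨C, hC0, hC⟩ := molSys_bound n l ε hε
  exact ⟨C, hC0, hC lam h⟩

/-- The kinetic energy is controlled by the form, uniformly in the coupling. -/
theorem molSys_kin_le (n : ℕ) (l : ℝ) : ∃ C : ℝ, 0 ≤ C ∧ ∀ lam ∈ Set.Icc (0 : ℝ) 1,
    ∀ (e : ℝ) (φ : Cfg n → ℝ), IsRealTest φ → (molSys n l lam).kin φ ≤
      4 * (molSys n l lam).bil e φ φ + (C + 4 * |e|) * mass φ := by
  obtain ⟨C, hC0, hC⟩ := molSys_bound n l (1 / 4) (by norm_num)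
  exact ⟨4 * C, by positivity, fun lam hlam e φ hφ =>
    (molSys n l lam).kin_le_of (molSys_good n l hlam) (hC lam hlam) e hφ⟩

/-- An isometry applied to every position, after renumbering the electrons. -/
def slotMap (R : Space ≃ₗᵢ[ℝ] Space) (σ : Equiv.Perm (Fin n)) : Cfg n ≃L[ℝ] Cfg n :=
  LinearEquiv.toContinuousLinearEquiv
    { toFun := fun x i => R (x (σ i))
      invFun := fun y j => R.symm (y (σ.symm j))
      map_add' := fun x y => by funext i; simp
      map_smul' := fun c x => by funext i; simp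
      left_inv := fun x => by funext j; simp
      right_inv := fun y => by funext i; simp }

theorem slotMap_apply (R : Space ≃ₗᵢ[ℝ] Space) (σ : Equiv.Perm (Fin n)) (x : Cfg n) (i : Fin n) :
    slotMap R σ x i = R (x (σ i)) := rfl

theorem measurePreserving_slotMap (R : Space ≃ₗᵢ[ℝ] Space) (σ : Equiv.Perm (Fin n)) :
    MeasurePreserving (slotMap R σ) := by
  have h1 := volume_preserving_pi (fun _ : Fin n => R.measurePreserving)
  have h2 := volume_measurePreserving_piCongrLeft (fun _ : Fin n => Space) σ.symm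
  have he : ⇑(slotMap R σ) = (fun (x : Cfg n) i => R (x i)) ∘
      ⇑(MeasurableEquiv.piCongrLeft (fun _ : Fin n => Space) σ.symm) := by
    funext x i
    have h := MeasurableEquiv.piCongrLeft_apply_apply (β := fun _ : Fin n => Space) σ.symm x (σ i)
    rw [Equiv.symm_apply_apply] at h
    rw [slotMap_apply, Function.comp_apply, h]
  rw [he]
  exact h1.comp h2

theorem slotMap_dirs (R : Space ≃ₗᵢ[ℝ] Space) (σ : Equiv.Perm (Fin n)) (p : Fin n × Fin 3) :
    slotMap R σ (dirs p) = Pi.single (σ.symm p.1) (R (unit3 p.2)) := by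
  funext i
  rw [slotMap_apply, dirs]
  rcases eq_or_ne i (σ.symm p.1) with h | h
  · subst h; simp
  · have h' : σ i ≠ p.1 := fun e => h (by rw [← e, Equiv.symm_apply_apply])
    simp [h, h']

theorem sum_unit3 (R : Space ≃ₗᵢ[ℝ] Space) (L M : Space →L[ℝ] ℝ) :
    ∑ a, L (R (unit3 a)) * M (R (unit3 a)) = ∑ a, L (unit3 a) * M (unit3 a) := by
  obtain ⟨l, rfl⟩ := (InnerProductSpace.toDual ℝ Space).surjective L
  obtain ⟨m, rfl⟩ := (InnerProductSpace.toDual ℝ Space).surjective M
  have key : ∀ b : OrthonormalBasis (Fin 3) ℝ Space,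
      ∑ a, (InnerProductSpace.toDual ℝ Space l) (b a) * (InnerProductSpace.toDual ℝ Space m) (b a) =
        inner ℝ l m := fun b => by
    simp only [InnerProductSpace.toDual_apply_apply]
    rw [← b.sum_inner_mul_inner l m]
    exact Finset.sum_congr rfl fun a _ => by rw [real_inner_comm m]
  have hb : ∀ a, (EuclideanSpace.basisFun (Fin 3) ℝ) a = unit3 a := fun a => by simp [unit3]
  have h1 := key ((EuclideanSpace.basisFun (Fin 3) ℝ).map R)
  have h2 := key (EuclideanSpace.basisFun (Fin 3) ℝ)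
  simp only [OrthonormalBasis.map_apply, hb] at h1 h2
  rw [h1, h2]

theorem attract_comp {R : Space ≃ₗᵢ[ℝ] Space}
    (hR : R (unit3 2) = unit3 2 ∨ R (unit3 2) = -unit3 2) (l : ℝ) (x : Space) :
    attract l (R x) = attract l x := by
  rcases hR with h | h
  · have hn : R (nuc l) = nuc l := by rw [nuc, map_smul, h]
    simp only [attract]
    nth_rewrite 1 [← hn]
    nth_rewrite 2 [← hn]
    rw [← map_sub, ← map_add, R.norm_map, R.norm_map]
  · have hn : R (nuc l) = -nuc l := by rw [nuc, map_smul, h, smul_neg]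
    have e1 : R x - nuc l = R (x + nuc l) := by rw [map_add, hn, sub_eq_add_neg]
    have e2 : R x + nuc l = R (x - nuc l) := by rw [map_sub, hn, sub_neg_eq_add]
    simp only [attract, e1, e2, R.norm_map]
    ring

theorem sum_pairs_comp (x : Cfg n) (σ : Equiv.Perm (Fin n)) :
    ∑ i, ∑ k ∈ Finset.Ioi i, 1 / ‖x (σ i) - x (σ k)‖ =
      ∑ i, ∑ k ∈ Finset.Ioi i, 1 / ‖x i - x k‖ := by
  have h : ∀ y : Cfg n, ∑ i, ∑ k, 1 / ‖y i - y k‖ =
      2 * ∑ i, ∑ k ∈ Finset.Ioi i, 1 / ‖y i - y k‖ := by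
    intro y
    have e : ∀ i, ∑ k, 1 / ‖y i - y k‖ = (∑ k ∈ Finset.Iio i, 1 / ‖y i - y k‖) +
        ∑ k ∈ Finset.Ioi i, 1 / ‖y i - y k‖ := fun i => by
      rw [← Finset.sum_union (Finset.disjoint_left.2 fun k h1 h2 =>
        lt_asymm (Finset.mem_Iio.1 h1) (Finset.mem_Ioi.1 h2))]
      refine (Finset.sum_subset (Finset.subset_univ _) fun k _ hk => ?_).symm
      simp only [Finset.mem_union, Finset.mem_Iio, Finset.mem_Ioi, not_or, not_lt] at hk
      simp [le_antisymm hk.2 hk.1]
    simp only [e, Finset.sum_add_distrib]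
    rw [two_mul, Finset.sum_comm' (t' := Finset.univ) (s' := fun k => Finset.Ioi k)
      (fun i k => by simp)]
    rw [add_left_inj]
    exact Finset.sum_congr rfl fun i _ => Finset.sum_congr rfl fun k _ => by rw [norm_sub_rev]
  have h1 : ∑ i, ∑ k, 1 / ‖x (σ i) - x (σ k)‖ = ∑ i, ∑ k, 1 / ‖x i - x k‖ := by
    rw [Equiv.sum_comp σ (fun i => ∑ k, 1 / ‖x i - x (σ k)‖)]
    exact Finset.sum_congr rfl fun i _ => Equiv.sum_comp σ (fun k => 1 / ‖x i - x k‖)
  have h2 := h (fun i => x (σ i))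
  have h3 := h x
  linarith

/-- Renumbering the electrons and isometries respecting the pair of nuclei are symmetries. -/
theorem molSys_symm {R : Space ≃ₗᵢ[ℝ] Space}
    (hR : R (unit3 2) = unit3 2 ∨ R (unit3 2) = -unit3 2) (σ : Equiv.Perm (Fin n)) (l lam : ℝ) :
    (molSys n l lam).Symm (slotMap R σ) := by
  refine ⟨measurePreserving_slotMap R σ, fun L M => ?_, fun x => ?_⟩
  · simp only [Fintype.sum_prod_type, show (molSys n l lam).v = dirs from rfl, slotMap_dirs]
    rw [Equiv.sum_comp σ.symm (fun i => ∑ a, L (Pi.single i (R (unit3 a))) *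
      M (Pi.single i (R (unit3 a))))]
    exact Finset.sum_congr rfl fun i _ =>
      sum_unit3 R (L.comp (ContinuousLinearMap.single ℝ (fun _ => Space) i))
        (M.comp (ContinuousLinearMap.single ℝ (fun _ => Space) i))
  · simp only [molSys, molPot, slotMap_apply, attract_comp hR, ← map_sub, R.norm_map,
      sum_pairs_comp x σ]
    rw [Equiv.sum_comp σ (fun i => attract l (x i))]

theorem oneSys_symm {R : Space ≃ₗᵢ[ℝ] Space}
    (hR : R (unit3 2) = unit3 2 ∨ R (unit3 2) = -unit3 2) (l : ℝ) :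
    (oneSys l).Symm R.toContinuousLinearEquiv :=
  ⟨R.measurePreserving, fun L M => sum_unit3 R L M,
    fun x => by simp [oneSys, attract_comp hR]⟩

theorem mirrorIso_axis : One.mirrorIso (unit3 2) = -unit3 2 := by
  ext a
  rw [One.mirrorIso_apply, One.mirror_apply]
  fin_cases a <;> simp [unit3]

end Vale.Agent.P363.Exist
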