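import Vale.Agent.P363.Base

/-!
P363: the interfaces of the existence module.

Lengths are scaled by the nuclear charge: one unit nucleus at each of `± l • unit3 2`, electron
repulsion with coupling `lam`. The symmetry axis is coordinate `2`, the mirror plane is
`height = 0`.
-/

noncomputable section

namespace Vale.Agent.P363

open MeasureTheory Filter
open scoped BigOperators Topology ENNReal

/-- The position of a scaled nucleus. -/
def nuc (l : ℝ) : Space := l • unit3 2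

/-- The attraction of the two scaled nuclei. -/
def attract (l : ℝ) (x : Space) : ℝ := 1 / ‖x - nuc l‖ + 1 / ‖x + nuc l‖

/-- The scaled potential of `n` electrons. -/
def molPot (l lam : ℝ) {n : ℕ} (x : Cfg n) : ℝ :=
  -∑ i, attract l (x i) + lam * ∑ i, ∑ k ∈ Finset.Ioi i, 1 / ‖x i - x k‖

/-- Real test functions: Lipschitz and compactly supported. -/
structure IsRealTest {E : Type} [NormedAddCommGroup E] (φ : E → ℝ) : Prop where
  lipschitz : ∃ K : NNReal, LipschitzWith K φ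
  compact : HasCompactSupport φ

/-- Derivative in the coordinate `a` of the electron `i`. -/
def slotDeriv {n : ℕ} (i : Fin n) (a : Fin 3) (φ : Cfg n → ℝ) (x : Cfg n) : ℝ :=
  fderiv ℝ φ x (Pi.single i (unit3 a))

/-- The scaled form on real spatial functions. -/
def formQ (l lam : ℝ) {n : ℕ} (φ : Cfg n → ℝ) : ℝ :=
  ∫ x, ((1 / 2 : ℝ) * ∑ i, ∑ a, slotDeriv i a φ x ^ 2 + molPot l lam x * φ x ^ 2)

/-- The form of one electron. -/
def formOne (l : ℝ) (φ : Space → ℝ) : ℝ :=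
  ∫ x, ((1 / 2 : ℝ) * ∑ a, deriv3 a φ x ^ 2 - attract l x * φ x ^ 2)

/-- `f` is the limit in the form norm of test functions in the sector `P`; `D` is its gradient. -/
def IsFormLim {n : ℕ} (P : (Cfg n → ℝ) → Prop) (f : Cfg n → ℝ)
    (D : Fin n → Fin 3 → Cfg n → ℝ) : Prop :=
  MemLp f 2 ∧ (∀ i a, MemLp (D i a) 2) ∧ ∃ φ : ℕ → Cfg n → ℝ,
    (∀ k, IsRealTest (φ k) ∧ P (φ k)) ∧
    Tendsto (fun k => ∫ x, (φ k x - f x) ^ 2) atTop (𝓝 0) ∧
    ∀ i a, Tendsto (fun k => ∫ x, (slotDeriv i a (φ k) x - D i a x) ^ 2) atTop (𝓝 0)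

/-- The same notion for one electron. -/
def IsOneLim (P : (Space → ℝ) → Prop) (f : Space → ℝ) (D : Fin 3 → Space → ℝ) : Prop :=
  MemLp f 2 ∧ (∀ a, MemLp (D a) 2) ∧ ∃ φ : ℕ → Space → ℝ,
    (∀ k, IsRealTest (φ k) ∧ P (φ k)) ∧
    Tendsto (fun k => ∫ x, (φ k x - f x) ^ 2) atTop (𝓝 0) ∧
    ∀ a, Tendsto (fun k => ∫ x, (deriv3 a (φ k) x - D a x) ^ 2) atTop (𝓝 0)

/-- A normalised lowest state of the sector `P` and its weak equation against all test functions. -/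
structure IsLowest (l lam : ℝ) {n : ℕ} (P : (Cfg n → ℝ) → Prop) (E : ℝ) (f : Cfg n → ℝ)
    (D : Fin n → Fin 3 → Cfg n → ℝ) : Prop where
  lim : IsFormLim P f D
  mass_one : ∫ x, f x ^ 2 = 1
  lower : ∀ φ, IsRealTest φ → P φ → E * ∫ x, φ x ^ 2 ≤ formQ l lam φ
  weak : ∀ η : Cfg n → ℝ, IsRealTest η →
    ∫ x, ((1 / 2 : ℝ) * ∑ i, ∑ a, D i a x * slotDeriv i a η x
      + (molPot l lam x - E) * f x * η x) = 0

/-- The two lowest one-electron states and the gap above them. -/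
structure ZeroOrder (l : ℝ) (g u : Space → ℝ) (Dg Du : Fin 3 → Space → ℝ) (eg eu e' : ℝ) :
    Prop where
  g_lim : IsOneLim (fun φ => ∀ x, φ (mirror x) = φ x) g Dg
  u_lim : IsOneLim (fun φ => ∀ x, φ (mirror x) = -φ x) u Du
  g_mass : ∫ x, g x ^ 2 = 1
  u_mass : ∫ x, u x ^ 2 = 1
  g_weak : ∀ η : Space → ℝ, IsRealTest η →
    ∫ x, ((1 / 2 : ℝ) * ∑ a, Dg a x * deriv3 a η x - (attract l x + eg) * g x * η x) = 0
  u_weak : ∀ η : Space → ℝ, IsRealTest η →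
    ∫ x, ((1 / 2 : ℝ) * ∑ a, Du a x * deriv3 a η x - (attract l x + eu) * u x * η x) = 0
  g_even : ∀ᵐ x, g (mirror x) = g x
  u_odd : ∀ᵐ x, u (mirror x) = -u x
  g_axis : ∀ R : Space ≃ₗᵢ[ℝ] Space, R (unit3 2) = unit3 2 → ∀ᵐ x, g (R x) = g x
  u_axis : ∀ R : Space ≃ₗᵢ[ℝ] Space, R (unit3 2) = unit3 2 → ∀ᵐ x, u (R x) = u x
  g_pos : ∀ᵐ x, 0 < g x
  u_pos : ∀ᵐ x, 0 < height x → 0 < u x
  eg_lt : eg < eu
  eu_lt : eu < e'
  e'_neg : e' < 0
  gap : ∀ φ, IsRealTest φ →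
    e' * (∫ x, φ x ^ 2) - (e' - eg) * (∫ x, g x * φ x) ^ 2 - (e' - eu) * (∫ x, u x * φ x) ^ 2 ≤
      formOne l φ

/-- Antisymmetry in the first two electrons. -/
def Anti01 {n : ℕ} (f : Cfg (n + 2) → ℝ) : Prop := ∀ x, f (x ∘ Equiv.swap 0 1) = -f x

/-- Two electrons in a symmetric, mirror-odd state. -/
def SymmOdd (f : Cfg 2 → ℝ) : Prop :=
  (∀ x, f (x ∘ Equiv.swap 0 1) = f x) ∧ ∀ x, f (fun i => mirror (x i)) = -f x

/-- Product of two orbitals. -/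
def prod2 (p q : Space → ℝ) (x : Cfg 2) : ℝ := p (x 0) * q (x 1)

/-- Gradient of a product of two orbitals. -/
def prod2Grad (p q : Space → ℝ) (Dp Dq : Fin 3 → Space → ℝ) (i : Fin 2) (a : Fin 3) :
    Cfg 2 → ℝ :=
  ![prod2 (Dp a) q, prod2 p (Dq a)] i

/-- Product of three orbitals. -/
def prod3 (p q r : Space → ℝ) (x : Cfg 3) : ℝ := p (x 0) * q (x 1) * r (x 2)

/-- Gradient of a product of three orbitals. -/
def prod3Grad (p q r : Space → ℝ) (Dp Dq Dr : Fin 3 → Space → ℝ) (i a : Fin 3) : Cfg 3 → ℝ :=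
  ![prod3 (Dp a) q r, prod3 p (Dq a) r, prod3 p q (Dr a)] i

/-- The uncoupled state `(g ⊗ u - u ⊗ g) ⊗ g / √2`. -/
def zero3 (g u : Space → ℝ) (x : Cfg 3) : ℝ := (prod3 g u g x - prod3 u g g x) / √2

/-- Its gradient. -/
def zero3Grad (g u : Space → ℝ) (Dg Du : Fin 3 → Space → ℝ) (i a : Fin 3) (x : Cfg 3) : ℝ :=
  (prod3Grad g u g Dg Du Dg i a x - prod3Grad u g g Du Dg Dg i a x) / √2

/-- The three-electron state near `zero3 g u`. -/
structure ThreeState (l lam C : ℝ) (g u : Space → ℝ) (Dg Du : Fin 3 → Space → ℝ) (eg eu : ℝ)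
    (E : ℝ) (f : Cfg 3 → ℝ) (D : Fin 3 → Fin 3 → Cfg 3 → ℝ) : Prop where
  lowest : IsLowest l lam Anti01 E f D
  anti : ∀ᵐ x, f (x ∘ Equiv.swap 0 1) = -f x
  odd : ∀ᵐ x, f (fun i => mirror (x i)) = -f x
  axis : ∀ R : Space ≃ₗᵢ[ℝ] Space, R (unit3 2) = unit3 2 → ∀ᵐ x, f (fun i => R (x i)) = f x
  energy_ge : 2 * eg + eu ≤ E
  energy_le : E ≤ 2 * eg + eu + C * lam
  close : ∫ x, (f x - zero3 g u x) ^ 2 ≤ C * lam
  close_grad : ∀ i a, ∫ x, (D i a x - zero3Grad g u Dg Du i a x) ^ 2 ≤ C * lam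

/-- A two-electron state of the sector `P` near `G`, with symmetry `σ` under exchange and `τ`
under the mirror. -/
structure TwoState (l lam C : ℝ) (P : (Cfg 2 → ℝ) → Prop) (σ τ E₀ : ℝ) (G : Cfg 2 → ℝ)
    (DG : Fin 2 → Fin 3 → Cfg 2 → ℝ) (E : ℝ) (f : Cfg 2 → ℝ) (D : Fin 2 → Fin 3 → Cfg 2 → ℝ) :
    Prop where
  lowest : IsLowest l lam P E f D
  exchange : ∀ᵐ x, f (x ∘ Equiv.swap 0 1) = σ * f x
  parity : ∀ᵐ x, f (fun i => mirror (x i)) = τ * f x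
  axis : ∀ R : Space ≃ₗᵢ[ℝ] Space, R (unit3 2) = unit3 2 → ∀ᵐ x, f (fun i => R (x i)) = f x
  energy_ge : E₀ ≤ E
  energy_le : E ≤ E₀ + C * lam
  close : ∫ x, (f x - G x) ^ 2 ≤ C * lam
  close_grad : ∀ i a, ∫ x, (D i a x - DG i a x) ^ 2 ≤ C * lam

/-- One electron: both states exist for distant nuclei, with energies near `-1/2` and a gap. -/
def ZeroOrderGoal : Prop :=
  ∃ γ : ℝ, 0 < γ ∧ ∀ ε : ℝ, 0 < ε → ∃ l₀ : ℝ, 0 < l₀ ∧ ∀ l : ℝ, l₀ ≤ l →
    ∃ g u Dg Du eg eu, ZeroOrder l g u Dg Du eg eu (-(1 / 2) + γ) ∧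
      |eg + 1 / 2| ≤ ε ∧ |eu + 1 / 2| ≤ ε

/-- Three electrons at weak coupling. -/
def ThreeGoal : Prop :=
  ∀ l g u Dg Du eg eu e', ZeroOrder l g u Dg Du eg eu e' →
    ∃ lam₀ C : ℝ, 0 < lam₀ ∧ ∀ lam ∈ Set.Ioo 0 lam₀,
      ∃ E f D, ThreeState l lam C g u Dg Du eg eu E f D

/-- Two electrons at weak coupling: the ground state, and the lowest odd singlet and triplet. -/
def TwoGoal : Prop :=
  ∀ l g u Dg Du eg eu e', ZeroOrder l g u Dg Du eg eu e' →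
    ∃ lam₀ C : ℝ, 0 < lam₀ ∧ ∀ lam ∈ Set.Ioo 0 lam₀,
      (∃ E f D, TwoState l lam C (fun _ => True) 1 1 (2 * eg) (prod2 g g)
        (prod2Grad g g Dg Dg) E f D) ∧
      (∃ E f D, TwoState l lam C SymmOdd 1 (-1) (eg + eu)
        (fun x => (prod2 g u x + prod2 u g x) / √2)
        (fun i a x => (prod2Grad g u Dg Du i a x + prod2Grad u g Du Dg i a x) / √2) E f D) ∧
      ∃ E f D, TwoState l lam C Anti01 (-1) (-1) (eg + eu)
        (fun x => (prod2 g u x - prod2 u g x) / √2)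
        (fun i a x => (prod2Grad g u Dg Du i a x - prod2Grad u g Du Dg i a x) / √2) E f D

/-- The molecular wave function of charge `Z` made from a scaled spatial function. -/
def molState (Z : ℝ) (f : Cfg 3 → ℝ) : Spins 3 → Cfg 3 → ℂ := fun s x =>
  ((√(Z ^ 9 / 3) *
    if s = ![0, 0, 1] then f (Z • x)
    else if s = ![0, 1, 0] then -f ![Z • x 0, Z • x 2, Z • x 1]
    else if s = ![1, 0, 0] then f ![Z • x 1, Z • x 2, Z • x 0]
    else 0 : ℝ) : ℂ)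

/-- The one-electron density of a spatial function. -/
def density1 {m : ℕ} (f : Cfg (m + 1) → ℝ) (r : Space) : ℝ≥0∞ :=
  ∑ i : Fin (m + 1), ∫⁻ y : Cfg m, ENNReal.ofReal (f (i.insertNth r y) ^ 2)

/-- From the scaled problem to a ground state of a Coulomb molecule and its density. -/
def BridgeGoal : Prop :=
  ∀ (l : ℝ) (Z : ℕ) (E : ℝ) (f : Cfg 3 → ℝ) (D : Fin 3 → Fin 3 → Cfg 3 → ℝ), 1 ≤ Z →
    IsLowest l (1 / (Z : ℝ)) Anti01 E f D →
      IsGroundState (coulomb ![(l / Z) • unit3 2, -((l / Z) • unit3 2)] fun _ => Z)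
          (molState Z f) ∧
        ∀ r, density (molState Z f) r = ENNReal.ofReal ((Z : ℝ) ^ 3) * density1 f ((Z : ℝ) • r)

end Vale.Agent.P363
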