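import Vale.Agent.P363.Exist.States
import Vale.Agent.P363.Exist.One.ZeroOrder
import Vale.Agent.P363.Inter.Defs

/-!
P363: the gap of the ion above its ground state, and all the states handed to the interacting
analysis.
-/

noncomputable section

namespace Vale.Agent.P363.Exist

open MeasureTheory Filter
open scoped BigOperators Topology ENNReal

/-- Along approximations of a solution of the weak equation the shifted form tends to zero. -/
theorem bil_diag_tendsto {E ι : Type} [NormedAddCommGroup E] [NormedSpace ℝ E]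
    [FiniteDimensional ℝ E] [MeasureSpace E] [BorelSpace E]
    [(volume : Measure E).IsAddHaarMeasure] [Fintype ι] {S : Sys E ι} (hS : S.Good)
    {φ : ℕ → E → ℝ} {f : E → ℝ} {D : ι → E → ℝ} (h : S.Approx φ f D) {e : ℝ}
    (hw : ∀ η : E → ℝ, IsRealTest η → S.bilLim e f η D (fun j => dir (S.v j) η) = 0) :
    Tendsto (fun k => S.bil e (φ k) (φ k)) atTop (𝓝 0) := by
  have hk : ∀ k, Tendsto (fun j => S.bil e (φ j) (φ k)) atTop (𝓝 0) := fun k => by
    have h0 := (h.tendsto_bil (Sys.Approx.const S (h.test k)) hS e).2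
    rwa [hw _ (h.test k)] at h0
  have hsel : ∀ k : ℕ, ∃ j, k ≤ j ∧ |S.bil e (φ j) (φ k)| ≤ 1 / (k + 1 : ℝ) := fun k =>
    ((eventually_ge_atTop k).and ((hk k).abs.eventually_le_const
      (show |(0 : ℝ)| < 1 / (k + 1 : ℝ) by rw [abs_zero]; positivity))).exists
  choose σ hσ hb using hsel
  have hσt : Tendsto σ atTop atTop := tendsto_atTop_mono hσ tendsto_id
  have hsub : S.Approx (fun k => φ (σ k)) f D :=
    ⟨fun k => h.test _, h.memLp, h.memLp_grad, h.value.comp hσt, fun a => (h.grad a).comp hσt⟩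
  have h1 := (hsub.tendsto_bil h hS e).2
  have h2 : Tendsto (fun k => S.bil e (φ (σ k)) (φ k)) atTop (𝓝 0) :=
    squeeze_zero_norm hb tendsto_one_div_add_atTop_nhds_zero_nat
  rw [← tendsto_nhds_unique h1 h2]
  exact (h.tendsto_bil h hS e).2

variable {l eg eu e' : ℝ} {g u : Space → ℝ} {Dg Du : Fin 3 → Space → ℝ}

/-- The gap of the ion above its ground state. -/
theorem ion_gap (hz : ZeroOrder l g u Dg Du eg eu e') (C : ℝ) :
    ∃ lam₀ : ℝ, 0 < lam₀ ∧ ∀ lam ∈ Set.Ioo 0 lam₀, ∀ E₂ χ Dχ,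
      TwoState l lam C (fun _ => True) 1 1 (2 * eg) (prod2 g g) (prod2Grad g g Dg Dg) E₂ χ Dχ →
      ∀ ξ : Cfg 2 → ℝ, IsRealTest ξ →
        E₂ * mass ξ + (eu - eg) / 2 * (mass ξ - ip χ ξ ^ 2) ≤ formQ l lam ξ := by
  set δ := eu - eg with hδ
  have hδ0 : 0 < δ := sub_pos.2 hz.eg_lt
  refine ⟨min 1 (δ / (2 * ((1 + δ) * |C| + 1))), lt_min one_pos (by positivity),
    fun lam hlam E₂ χ Dχ h ξ hξ => ?_⟩
  obtain ⟨hl0, hlt⟩ := hlam
  have hI : lam ∈ Set.Icc (0 : ℝ) 1 := ⟨hl0.le, (lt_of_lt_of_le hlt (min_le_left _ _)).le⟩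
  have hsmall : C * lam * (1 + δ) ≤ δ / 2 := by
    have h1 := lt_of_lt_of_le hlt (min_le_right _ _)
    rw [lt_div_iff₀ (by positivity)] at h1
    have h2 : C * lam * (1 + δ) ≤ |C| * lam * (1 + δ) :=
      mul_le_mul_of_nonneg_right (mul_le_mul_of_nonneg_right (le_abs_self C) hl0.le) (by linarith)
    linarith
  set S := molSys 2 l lam
  have hS : S.Good := molSys_good 2 l hI
  obtain ⟨hχm, hDm, φ, hφ, hφv, hφg⟩ := h.lowest.lim
  have hA : S.Approx φ χ fun p => Dχ p.1 p.2 :=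
    ⟨fun k => (hφ k).1, hχm, fun p => hDm p.1 p.2, hφv, fun p => hφg p.1 p.2⟩
  have hw : ∀ η : Cfg 2 → ℝ, IsRealTest η →
      S.bilLim E₂ χ η (fun p => Dχ p.1 p.2) (fun j => dir (S.v j) η) = 0 := fun η hη => by
    rw [bilLim_eq hA (Sys.Approx.const S hη) hS E₂]
    simp only [S, molSys, Fintype.sum_prod_type, dir_dirs]
    exact h.lowest.weak η hη
  have hdiag := bil_diag_tendsto hS hA hw
  have hcross : Tendsto (fun k => S.bil E₂ (φ k) ξ) atTop (𝓝 0) := by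
    have := (hA.tendsto_bil (Sys.Approx.const S hξ) hS E₂).2
    rwa [hw ξ hξ] at this
  have hg := memLp_prod2 hz.g_lim.1 hz.g_lim.1
  set a := ip χ ξ with ha
  have hφm := fun k => memLp_test (hA.test k)
  have hξm := memLp_test hξ
  have hleft : Tendsto (fun k => S.bil E₂ ((1 : ℝ) • ξ + (-a) • φ k) ((1 : ℝ) • ξ + (-a) • φ k))
      atTop (𝓝 (S.bil E₂ ξ ξ)) := by
    have he : ∀ k, S.bil E₂ ((1 : ℝ) • ξ + (-a) • φ k) ((1 : ℝ) • ξ + (-a) • φ k) =
        S.bil E₂ ξ ξ + (2 * -a) * S.bil E₂ (φ k) ξ + a ^ 2 * S.bil E₂ (φ k) (φ k) := fun k => by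
      rw [S.bil_comb_self hS E₂ 1 (-a) hξ (hA.test k), S.bil_comm E₂ ξ (φ k)]; ring
    simp only [he]
    simpa using ((hcross.const_mul (2 * -a)).const_add (S.bil E₂ ξ ξ)).add (hdiag.const_mul (a ^ 2))
  set w : Cfg 2 → ℝ := (1 : ℝ) • ξ + (-a) • χ with hwdef
  have hwm : MemLp w 2 := (hξm.const_smul _).add (hχm.const_smul _)
  have hwk : Tendsto (fun k => mass ((1 : ℝ) • ξ + (-a) • φ k)) atTop (𝓝 (mass w)) := by
    have e : ∀ k, mass ((1 : ℝ) • ξ + (-a) • φ k) =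
        mass ξ + 2 * -a * ip (φ k) ξ + a ^ 2 * mass (φ k) := fun k => by
      rw [mass_comb _ _ hξm (hφm k), ip_comm]; ring
    simp only [e]
    rw [hwdef, mass_comb _ _ hξm hχm, ip_comm ξ χ]
    have := (((tendsto_ip hφm (fun _ => hξm) hχm hξm hA.value (tendsto_const_mass ξ)).const_mul
      (2 * -a)).const_add (mass ξ)).add ((tendsto_mass hφm hχm hA.value).const_mul (a ^ 2))
    convert this using 2
    ring
  have hik : Tendsto (fun k => ip (prod2 g g) ((1 : ℝ) • ξ + (-a) • φ k)) atTop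
      (𝓝 (ip (prod2 g g) w)) := by
    have e : ∀ k, ip (prod2 g g) ((1 : ℝ) • ξ + (-a) • φ k) =
        ip (prod2 g g) ξ + -a * ip (prod2 g g) (φ k) := fun k => by
      rw [ip_comb' _ _ hg hξm (hφm k), one_mul]
    simp only [e]
    rw [hwdef, ip_comb' _ _ hg hξm hχm, one_mul]
    exact ((tendsto_ip (fun _ => hg) hφm hg hχm (tendsto_const_mass _) hA.value).const_mul
      (-a)).const_add _
  have hlim := le_of_tendsto_of_tendsto'
    (((hwk.const_mul (δ - C * lam)).sub ((hik.pow 2).const_mul δ))) hleft fun k => by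
      have ht := isRealTest_comb 1 (-a) hξ (hA.test k)
      have h1 := gap_ion hz ht
      have h2 := sum_oneTerm_le l hI ht
      have h3 := mul_le_mul_of_nonneg_right h.energy_le
        (mass_nonneg ((1 : ℝ) • ξ + (-a) • φ k))
      rw [S.bil_eq_form hS E₂ ht, form_molSys]
      rw [← hδ] at h1
      nlinarith [mass_nonneg ((1 : ℝ) • ξ + (-a) • φ k)]
  have hm1 : mass χ = 1 := h.lowest.mass_one
  have hw1 : mass w = mass ξ - a ^ 2 := by
    rw [hwdef, mass_comb _ _ hξm hχm, ip_comm ξ χ, hm1, ← ha]; ring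
  have horth : ip χ w = 0 := by
    rw [hwdef, ip_comb' _ _ hχm hξm hχm, ip_self, hm1, ← ha]; ring
  have hsq : ip (prod2 g g) w ^ 2 ≤ C * lam * mass w := by
    have e : ip (prod2 g g) w = ip (prod2 g g - χ) w := by
      rw [sub_eq_comb, ip_comb _ _ hg hχm hwm, horth]; ring
    rw [e]
    refine (ip_sq_le (hg.sub hχm) hwm).trans (mul_le_mul_of_nonneg_right ?_ (mass_nonneg w))
    rw [mass_sub_comm]
    exact h.close
  rw [S.bil_eq_form hS E₂ hξ, form_molSys] at hlim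
  have k1 := mul_le_mul_of_nonneg_left hsq hδ0.le
  have k2 := mul_le_mul_of_nonneg_right hsmall (mass_nonneg w)
  rw [hw1] at hlim k1 k2
  nlinarith

/-- All states handed to the interacting analysis. -/
theorem molStates (hz : ZeroOrder l g u Dg Du eg eu e') :
    ∃ lam₀ C : ℝ, 0 < lam₀ ∧ ∀ lam ∈ Set.Ioo 0 lam₀,
      ∃ E3 f D E2 χ Dχ Es χs Ds Et χt Dt,
        Inter.MolState l lam C g u Dg Du eg eu E3 f D E2 χ Dχ Es χs Ds Et χt Dt := by
  obtain ⟨l3, C3, hl3, h3⟩ := threeGoal l g u Dg Du eg eu e' hz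
  obtain ⟨l2, C2, hl2, h2⟩ := twoGoal l g u Dg Du eg eu e' hz
  obtain ⟨l1, hl1, hgap⟩ := ion_gap hz (max C3 C2)
  refine ⟨min l1 (min l2 l3), max C3 C2, lt_min hl1 (lt_min hl2 hl3), fun lam hlam => ?_⟩
  have m1 : lam < l1 := lt_of_lt_of_le hlam.2 (min_le_left _ _)
  have m2 : lam < l2 := lt_of_lt_of_le hlam.2 ((min_le_right _ _).trans (min_le_left _ _))
  have m3 : lam < l3 := lt_of_lt_of_le hlam.2 ((min_le_right _ _).trans (min_le_right _ _))
  obtain ⟨E3, f, D, hf⟩ := h3 lam ⟨hlam.1, m3⟩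
  obtain ⟨⟨E2, χ, Dχ, hχ⟩, ⟨Es, χs, Ds, hs⟩, ⟨Et, χt, Dt, ht⟩⟩ := h2 lam ⟨hlam.1, m2⟩
  have hC : C3 * lam ≤ max C3 C2 * lam :=
    mul_le_mul_of_nonneg_right (le_max_left _ _) hlam.1.le
  have hion := twoState_mono hχ (le_max_right C3 C2) hlam.1.le
  refine ⟨E3, f, D, E2, χ, Dχ, Es, χs, Ds, Et, χt, Dt,
    ⟨hf.lowest, hf.anti, hf.odd, hf.axis, hf.energy_ge, by linarith [hf.energy_le],
      hf.close.trans hC, fun i a => (hf.close_grad i a).trans hC⟩, hion,
    twoState_mono hs (le_max_right _ _) hlam.1.le, twoState_mono ht (le_max_right _ _) hlam.1.le,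
    fun ξ hξ => ?_⟩
  have h := hgap lam ⟨hlam.1, m1⟩ E2 χ Dχ hion ξ hξ
  have e : Inter.ipN ξ ξ = mass ξ := ip_self ξ
  rw [e]
  exact h

end Vale.Agent.P363.Exist
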