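import Vale.Agent.P363.Exist.Form

/-!
P363: a form with a spectral gap above a rank one state has a lowest state near it, unique up to
its sign, and solving the weak equation.
-/

noncomputable section

namespace Vale.Agent.P363.Exist

open MeasureTheory Filter
open scoped BigOperators Topology ENNReal

variable {E : Type} [NormedAddCommGroup E] [NormedSpace ℝ E] [FiniteDimensional ℝ E]
  [MeasureSpace E] [BorelSpace E] [(volume : Measure E).IsAddHaarMeasure]
  {ι : Type} [Fintype ι] {S : Sys E ι} {P : (E → ℝ) → Prop}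

omit [FiniteDimensional ℝ E] [MeasureSpace E] [BorelSpace E]
  [(volume : Measure E).IsAddHaarMeasure] [NormedAddCommGroup E] [NormedSpace ℝ E] in
/-- A sector is closed under linear combinations. -/
def Closed (P : (E → ℝ) → Prop) : Prop :=
  ∀ (a b : ℝ) φ χ, P φ → P χ → P (a • φ + b • χ)

omit [FiniteDimensional ℝ E] [MeasureSpace E] [BorelSpace E]
  [(volume : Measure E).IsAddHaarMeasure] [NormedAddCommGroup E] [NormedSpace ℝ E] in
theorem Closed.smul (hP : Closed P) (a : ℝ) {φ : E → ℝ} (h : P φ) : P (a • φ) := by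
  simpa using hP a 0 φ φ h h

theorem Sys.bil_smul (hS : S.Good) (e a : ℝ) {φ : E → ℝ} (hφ : IsRealTest φ) :
    S.bil e (a • φ) (a • φ) = a ^ 2 * S.bil e φ φ := by
  have h := S.bil_comb_self hS e a 0 hφ hφ
  simp only [zero_smul, add_zero, mul_zero, zero_mul] at h
  rw [h]; ring

theorem mass_smul (a : ℝ) (f : E → ℝ) : mass (a • f) = a ^ 2 * mass f := by
  simp only [mass, Pi.smul_apply, smul_eq_mul, mul_pow]
  exact integral_const_mul _ _

theorem ip_smul_right (a : ℝ) (f g : E → ℝ) : ip f (a • g) = a * ip f g := by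
  simp only [ip, Pi.smul_apply, smul_eq_mul, mul_left_comm _ a]
  exact integral_const_mul _ _

theorem bil_comb_le (hS : S.Good) (hP : Closed P) {e : ℝ}
    (hlow : ∀ φ, IsRealTest φ → P φ → 0 ≤ S.bil e φ φ) (a b : ℝ) {φ χ : E → ℝ}
    (hφ : IsRealTest φ) (hφP : P φ) (hχ : IsRealTest χ) (hχP : P χ) :
    S.bil e (a • φ + b • χ) (a • φ + b • χ) ≤
      2 * a ^ 2 * S.bil e φ φ + 2 * b ^ 2 * S.bil e χ χ := by
  have h := hlow _ (isRealTest_comb a (-b) hφ hχ) (hP a (-b) _ _ hφP hχP)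
  rw [S.bil_comb_self hS e a (-b) hφ hχ] at h
  rw [S.bil_comb_self hS e a b hφ hχ]
  linarith [show (-b) ^ 2 = b ^ 2 by ring, show a * -b = -(a * b) by ring]

theorem bil_sq_le (hS : S.Good) (hP : Closed P) {e : ℝ}
    (hlow : ∀ φ, IsRealTest φ → P φ → 0 ≤ S.bil e φ φ) {φ χ : E → ℝ}
    (hφ : IsRealTest φ) (hφP : P φ) (hχ : IsRealTest χ) (hχP : P χ) :
    S.bil e φ χ ^ 2 ≤ S.bil e φ φ * S.bil e χ χ := by
  have h : ∀ t : ℝ, 0 ≤ S.bil e χ χ * (t * t) + 2 * S.bil e φ χ * t + S.bil e φ φ := fun t => by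
    have := hlow _ (isRealTest_comb 1 t hφ hχ) (hP 1 t _ _ hφP hχP)
    rw [S.bil_comb_self hS e 1 t hφ hχ] at this
    nlinarith
  have := discrim_le_zero h
  rw [discrim] at this
  linarith

/-- Two nearly optimal normalised functions with overlaps of one sign are close. -/
theorem dist_le (hS : S.Good) (hP : Closed P) {e η K : ℝ} (hη : 0 < η) (hK : 0 ≤ K)
    {G : E → ℝ} (hG : MemLp G 2)
    (hlow : ∀ φ, IsRealTest φ → P φ → 0 ≤ S.bil e φ φ)
    (hgap : ∀ φ, IsRealTest φ → P φ → η * mass φ - K * ip G φ ^ 2 ≤ S.bil e φ φ)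
    {a b : E → ℝ} (ha : IsRealTest a) (haP : P a) (ha1 : mass a = 1) (ha0 : 0 ≤ ip G a)
    (hb : IsRealTest b) (hbP : P b) (hb1 : mass b = 1) (hb0 : 0 ≤ ip G b) :
    η * mass (a - b) ≤
      2 * (1 + K * (ip G a ^ 2 + ip G b ^ 2) / η) * (S.bil e a a + S.bil e b b) := by
  set p := ip G a with hp
  set q := ip G b with hq
  have hFa := hlow a ha haP
  have hFb := hlow b hb hbP
  have hab : ip a b ≤ 1 := by
    have h := mass_nonneg (a - b)
    rw [mass_sub (memLp_test ha) (memLp_test hb), ha1, hb1] at h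
    linarith
  set d := q • a + (-p) • b with hd
  have hdt := isRealTest_comb q (-p) ha hb
  have h0 : ip G d = 0 := by
    rw [hd, ip_comb' q (-p) hG (memLp_test ha) (memLp_test hb)]
    simp only [← hp, ← hq]; ring
  have hmd : (p - q) ^ 2 ≤ mass d := by
    rw [hd, mass_comb q (-p) (memLp_test ha) (memLp_test hb), ha1, hb1]
    nlinarith [mul_nonneg ha0 hb0]
  have hd2 : η * (p - q) ^ 2 ≤ 2 * (p ^ 2 + q ^ 2) * (S.bil e a a + S.bil e b b) := by
    have h1 := hgap d hdt (hP _ _ _ _ haP hbP)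
    have h2 := bil_comb_le hS hP hlow q (-p) ha haP hb hbP
    rw [← hd] at h2
    rw [h0] at h1
    nlinarith [mul_le_mul_of_nonneg_left hmd hη.le, mul_nonneg (sq_nonneg p) hFa,
      mul_nonneg (sq_nonneg q) hFb]
  have h1 := hgap (a - b) (isRealTest_sub ha hb) (by
    rw [sub_eq_comb]; exact hP _ _ _ _ haP hbP)
  have h2 := bil_comb_le hS hP hlow 1 (-1) ha haP hb hbP
  rw [← sub_eq_comb] at h2
  have h3 : ip G (a - b) = p - q := by
    rw [sub_eq_comb, ip_comb' _ _ hG (memLp_test ha) (memLp_test hb)]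
    ring
  rw [h3] at h1
  have h4 : K * (p - q) ^ 2 ≤ K * (2 * (p ^ 2 + q ^ 2) * (S.bil e a a + S.bil e b b) / η) :=
    mul_le_mul_of_nonneg_left ((le_div_iff₀ hη).2 (by linarith)) hK
  calc η * mass (a - b) ≤ S.bil e (a - b) (a - b) + K * (p - q) ^ 2 := by linarith
    _ ≤ 2 * (S.bil e a a + S.bil e b b) +
        K * (2 * (p ^ 2 + q ^ 2) * (S.bil e a a + S.bil e b b) / η) := by linarith
    _ = _ := by ring

variable (S P) in
/-- Normalised tests of the sector, overlapping `G` positively, with energies tending to `e`. -/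
structure Sys.Minimising (G : E → ℝ) (e : ℝ) (φ : ℕ → E → ℝ) : Prop where
  test : ∀ k, IsRealTest (φ k)
  sector : ∀ k, P (φ k)
  mass_one : ∀ k, mass (φ k) = 1
  sign : ∀ k, 0 ≤ ip G (φ k)
  energy : Tendsto (fun k => S.bil e (φ k) (φ k)) atTop (𝓝 0)

variable (S P) in
/-- The hypotheses for a lowest state at `e`. -/
structure Sys.Gapped (G : E → ℝ) (e η K : ℝ) : Prop where
  good : S.Good
  closed : Closed P
  memLp : MemLp G 2
  mass_one : mass G = 1
  eta_pos : 0 < η
  K_nonneg : 0 ≤ K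
  low : ∀ φ, IsRealTest φ → P φ → 0 ≤ S.bil e φ φ
  gap : ∀ φ, IsRealTest φ → P φ → η * mass φ - K * ip G φ ^ 2 ≤ S.bil e φ φ

theorem Sys.Gapped.close {G : E → ℝ} {e η K : ℝ} (h : S.Gapped P G e η K) {a b : ℕ → E → ℝ}
    (ha : S.Minimising P G e a) (hb : S.Minimising P G e b) (j k : ℕ) :
    mass (a j - b k) ≤ 2 * (1 + K * 2 / η) / η *
      (S.bil e (a j) (a j) + S.bil e (b k) (b k)) := by
  have h0 := dist_le h.good h.closed h.eta_pos h.K_nonneg h.memLp h.low h.gap (ha.test j)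
    (ha.sector j) (ha.mass_one j) (ha.sign j) (hb.test k) (hb.sector k) (hb.mass_one k) (hb.sign k)
  have hl : ∀ φ, IsRealTest φ → mass φ = 1 → ip G φ ^ 2 ≤ 1 := fun φ hφ h1 =>
    (ip_sq_le h.memLp (memLp_test hφ)).trans (by rw [h1, h.mass_one, one_mul])
  have h1 := add_le_add (hl _ (ha.test j) (ha.mass_one j)) (hl _ (hb.test k) (hb.mass_one k))
  rw [div_mul_eq_mul_div, le_div_iff₀ h.eta_pos, mul_comm]
  refine h0.trans (mul_le_mul_of_nonneg_right ?_ (add_nonneg (h.low _ (ha.test j) (ha.sector j))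
    (h.low _ (hb.test k) (hb.sector k))))
  have hη := h.eta_pos
  have hK := h.K_nonneg
  gcongr
  linarith

/-- A minimising sequence converges together with its derivatives; the limit is unique and solves
the weak equation. -/
theorem Sys.Gapped.exists_limit {G : E → ℝ} {e η K : ℝ} (h : S.Gapped P G e η K) {φ : ℕ → E → ℝ}
    (hφ : S.Minimising P G e φ) :
    ∃ f D, S.Approx φ f D ∧ mass f = 1 ∧ 0 ≤ ip G f ∧
      (∀ χ, S.Minimising P G e χ → Tendsto (fun k => mass (χ k - f)) atTop (𝓝 0)) ∧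
      ∀ η : E → ℝ, IsRealTest η →
        (∃ η', IsRealTest η' ∧ P η' ∧ ∀ k, S.bil e (φ k) η = S.bil e (φ k) η') →
        S.bilLim e f η D (fun j => dir (S.v j) η) = 0 := by
  set c := 2 * (1 + K * 2 / η) / η with hc
  have hm : ∀ k, MemLp (φ k) 2 := fun k => memLp_test (hφ.test k)
  have hc0 : 0 ≤ c := by
    have := h.eta_pos; have := h.K_nonneg
    rw [hc]; positivity
  have hsmall : ∀ ε : ℝ, 0 < ε → ∃ N, ∀ k ≥ N, S.bil e (φ k) (φ k) ≤ ε := fun ε hε =>
    eventually_atTop.1 (hφ.energy.eventually_le_const hε)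
  have hcauchy : ∀ ε : ℝ, 0 < ε → ∃ N, ∀ j ≥ N, ∀ k ≥ N, mass (φ j - φ k) ≤ ε := by
    intro ε hε
    obtain ⟨N, hN⟩ := hsmall (ε / (2 * (c + 1))) (by positivity)
    refine ⟨N, fun j hj k hk => (h.close hφ hφ j k).trans ?_⟩
    calc c * (S.bil e (φ j) (φ j) + S.bil e (φ k) (φ k))
        ≤ c * (ε / (2 * (c + 1)) + ε / (2 * (c + 1))) :=
          mul_le_mul_of_nonneg_left (add_le_add (hN j hj) (hN k hk)) hc0
      _ = c / (c + 1) * ε := by field_simp; ring
      _ ≤ 1 * ε := by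
          refine mul_le_mul_of_nonneg_right ?_ hε.le
          rw [div_le_one (by linarith)]; linarith
      _ = ε := one_mul ε
  obtain ⟨f, hf, hφf⟩ := cauchy_limit hm hcauchy
  obtain ⟨C, hC0, hC⟩ := S.kin_le h.good
  have hgrad : ∀ j, ∃ D, MemLp D 2 ∧
      Tendsto (fun k => mass (dir (S.v j) (φ k) - D)) atTop (𝓝 0) := by
    intro j
    refine cauchy_limit (fun k => memLp_dir (hφ.test k) _) fun ε hε => ?_
    have hs : 0 < ε / (16 + (C + 4 * |e| + 1)) := by positivity
    obtain ⟨N, hN⟩ := hsmall _ hs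
    obtain ⟨M, hM⟩ := hcauchy _ hs
    refine ⟨max N M, fun p hp q hq => ?_⟩
    have h1 : mass (dir (S.v j) (φ p) - dir (S.v j) (φ q)) ≤ S.kin (φ p - φ q) := by
      rw [← mass_congr (dir_sub (hφ.test p) (hφ.test q) _)]
      exact Finset.single_le_sum (f := fun i => mass (dir (S.v i) (φ p - φ q)))
        (fun i _ => mass_nonneg _) (Finset.mem_univ j)
    have h2 := hC e _ (isRealTest_sub (hφ.test p) (hφ.test q))
    have h3 := bil_comb_le h.good h.closed h.low 1 (-1) (hφ.test p) (hφ.sector p) (hφ.test q)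
      (hφ.sector q)
    rw [← sub_eq_comb] at h3
    have h4 := hM p (le_trans (le_max_right _ _) hp) q (le_trans (le_max_right _ _) hq)
    have h5 := hN p (le_trans (le_max_left _ _) hp)
    have h6 := hN q (le_trans (le_max_left _ _) hq)
    have h7 := mul_le_mul_of_nonneg_left h4 (show 0 ≤ C + 4 * |e| by positivity)
    calc mass (dir (S.v j) (φ p) - dir (S.v j) (φ q))
        ≤ (16 + (C + 4 * |e| + 1)) * (ε / (16 + (C + 4 * |e| + 1))) := by nlinarith
      _ = ε := by field_simp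
  choose D hD hφD using hgrad
  have hA : S.Approx φ f D := ⟨hφ.test, hf, hD, hφf, hφD⟩
  refine ⟨f, D, hA, ?_, ?_, fun χ hχ => ?_, fun η' hη' ⟨η'', hη'', hP'', heq⟩ => ?_⟩
  · refine tendsto_nhds_unique (tendsto_mass hm hf hφf) ?_
    simp only [hφ.mass_one, tendsto_const_nhds]
  · exact ge_of_tendsto (tendsto_ip (fun _ => h.memLp) hm h.memLp hf (tendsto_const_mass G) hφf)
      (Eventually.of_forall hφ.sign)
  · refine squeeze_zero (fun k => mass_nonneg _)
      (fun k => mass_sub_le (memLp_test (hχ.test k)) (hm k) hf) ?_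
    have h1 : Tendsto (fun k => mass (χ k - φ k)) atTop (𝓝 0) :=
      squeeze_zero (fun k => mass_nonneg _) (fun k => h.close hχ hφ k k)
        (by simpa using (hχ.energy.add hφ.energy).const_mul c)
    simpa using (h1.const_mul 2).add (hφf.const_mul 2)
  · refine tendsto_nhds_unique (hA.tendsto_bil (Sys.Approx.const S hη') h.good e).2 ?_
    refine squeeze_zero_norm (fun k => ?_)
      (a := fun k => √(S.bil e (φ k) (φ k) * S.bil e η'' η'')) ?_
    · rw [Real.norm_eq_abs, ← Real.sqrt_sq_eq_abs, heq k]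
      exact Real.sqrt_le_sqrt (bil_sq_le h.good h.closed h.low (hφ.test k) (hφ.sector k) hη'' hP'')
    · simpa using (hφ.energy.mul_const (S.bil e η'' η'')).sqrt

variable (S P) in
/-- A rank one gap above `E₀` and a trial state below `E₀ + δ`. -/
structure Sys.Trial (G : E → ℝ) (DG : ι → E → ℝ) (E₀ δ c : ℝ) (Gs : ℕ → E → ℝ) : Prop where
  good : S.Good
  closed : Closed P
  mass_one : mass G = 1
  c_lt : c < δ
  gap : ∀ φ, IsRealTest φ → P φ → δ * (mass φ - ip G φ ^ 2) ≤ S.bil E₀ φ φ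
  approx : S.Approx Gs G DG
  sector : ∀ k, P (Gs k)
  value : S.bilLim E₀ G G DG DG ≤ c

/-- There is a lowest state of the sector. -/
theorem Sys.Trial.exists_lowest {G : E → ℝ} {DG : ι → E → ℝ} {E₀ δ c : ℝ} {Gs : ℕ → E → ℝ}
    (h : S.Trial P G DG E₀ δ c Gs) {C : ℝ}
    (hC : ∀ (e : ℝ) φ, IsRealTest φ → S.kin φ ≤ 4 * S.bil e φ φ + (C + 4 * |e|) * mass φ) :
    ∃ e f D φ, E₀ ≤ e ∧ e ≤ E₀ + c ∧ S.Gapped P G e (δ - (e - E₀)) δ ∧ S.Minimising P G e φ ∧
      S.Approx φ f D ∧ mass f = 1 ∧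
      (∀ χ, S.Minimising P G e χ → Tendsto (fun k => mass (χ k - f)) atTop (𝓝 0)) ∧
      (∀ η : E → ℝ, IsRealTest η →
        (∃ η', IsRealTest η' ∧ P η' ∧ ∀ k, S.bil e (φ k) η = S.bil e (φ k) η') →
        S.bilLim e f η D (fun j => dir (S.v j) η) = 0) ∧
      mass (f - G) ≤ 2 * c / δ ∧
      ∀ j, mass (D j - DG j) ≤ 8 * c + abs (C + 4 * abs e) * (2 * c / δ) := by
  have hS := h.good
  have hP := h.closed
  have hG : MemLp G 2 := h.approx.memLp
  have hgm := fun k => memLp_test (h.approx.test k)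
  have hlim := (h.approx.tendsto_bil h.approx hS E₀).2
  have hmass : Tendsto (fun k => mass (Gs k)) atTop (𝓝 1) := by
    simpa only [h.mass_one] using tendsto_mass hgm hG h.approx.value
  have hlow0 : ∀ φ, IsRealTest φ → P φ → 0 ≤ mass φ - ip G φ ^ 2 := fun φ hφ _ => by
    have := ip_sq_le hG (memLp_test hφ)
    rw [h.mass_one, one_mul] at this
    linarith
  have hc0 : 0 ≤ S.bilLim E₀ G G DG DG := by
    refine ge_of_tendsto hlim (Eventually.of_forall fun k => ?_)
    have hh := h.gap _ (h.approx.test k) (h.sector k)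
    have hδ : 0 ≤ δ ∨ δ < 0 := le_or_gt 0 δ
    rcases hδ with hδ | hδ
    · exact (mul_nonneg hδ (hlow0 _ (h.approx.test k) (h.sector k))).trans hh
    · exfalso
      have : Tendsto (fun k => δ * (mass (Gs k) - ip G (Gs k) ^ 2)) atTop (𝓝 0) := by
        have hi := tendsto_ip (fun _ => hG) hgm hG hG (tendsto_const_mass G) h.approx.value
        rw [ip_self, h.mass_one] at hi
        simpa using (hmass.sub (hi.pow 2)).const_mul δ
      have := le_of_tendsto_of_tendsto' this hlim fun k => h.gap _ (h.approx.test k) (h.sector k)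
      linarith [h.value, h.c_lt]
  have hδ : 0 < δ := lt_of_le_of_lt (hc0.trans h.value) h.c_lt
  set T : Set ℝ := {r | ∃ φ, IsRealTest φ ∧ P φ ∧ mass φ = 1 ∧ r = S.bil E₀ φ φ} with hT
  have hnorm : ∀ φ, IsRealTest φ → P φ → 0 < mass φ → S.bil E₀ φ φ / mass φ ∈ T := by
    intro φ hφ hφP hpos
    refine ⟨(√(mass φ))⁻¹ • φ, isRealTest_smul _ hφ, hP.smul _ hφP, ?_, ?_⟩
    · rw [mass_smul, inv_pow, Real.sq_sqrt hpos.le]; field_simp
    · rw [S.bil_smul hS E₀ _ hφ, inv_pow, Real.sq_sqrt hpos.le]; field_simp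
  have hbdd : BddBelow T := by
    refine ⟨0, ?_⟩
    rintro r ⟨φ, hφ, hφP, -, rfl⟩
    exact (mul_nonneg hδ.le (hlow0 φ hφ hφP)).trans (h.gap φ hφ hφP)
  have hev : ∀ᶠ k in atTop, (1 : ℝ) / 2 < mass (Gs k) := hmass.eventually_const_lt (by norm_num)
  obtain ⟨k₀, hk₀⟩ := hev.exists
  have hne : T.Nonempty := ⟨_, hnorm _ (h.approx.test k₀) (h.sector k₀) (by linarith)⟩
  set m := sInf T with hm
  have hm0 : 0 ≤ m := le_csInf hne (by
    rintro r ⟨φ, hφ, hφP, -, rfl⟩
    exact (mul_nonneg hδ.le (hlow0 φ hφ hφP)).trans (h.gap φ hφ hφP))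
  have hmc : m ≤ c := by
    have hq : Tendsto (fun k => S.bil E₀ (Gs k) (Gs k) / mass (Gs k)) atTop
        (𝓝 (S.bilLim E₀ G G DG DG)) := by
      have hq := hlim.div hmass one_ne_zero
      rw [div_one] at hq
      exact hq
    refine le_trans (ge_of_tendsto hq ?_) h.value
    · filter_upwards [hev] with k hk
      exact csInf_le hbdd (hnorm _ (h.approx.test k) (h.sector k) (by linarith))
  have hshift : ∀ φ, IsRealTest φ →
      S.bil (E₀ + m) φ φ = S.bil E₀ φ φ - m * mass φ := fun φ hφ => by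
    rw [S.bil_eq_form hS _ hφ, S.bil_eq_form hS _ hφ]; ring
  have hgap : S.Gapped P G (E₀ + m) (δ - (E₀ + m - E₀)) δ := by
    refine ⟨hS, hP, hG, h.mass_one, by linarith [h.c_lt], hδ.le, fun φ hφ hφP => ?_,
      fun φ hφ hφP => ?_⟩
    · rw [hshift φ hφ]
      rcases (mass_nonneg φ).lt_or_eq with hpos | hzero
      · have := csInf_le hbdd (hnorm φ hφ hφP hpos)
        rw [← hm, le_div_iff₀ hpos] at this
        linarith
      · have := (mul_nonneg hδ.le (hlow0 φ hφ hφP)).trans (h.gap φ hφ hφP)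
        rw [← hzero]; linarith
    · have := h.gap φ hφ hφP
      rw [hshift φ hφ]
      linarith
  obtain ⟨u, -, hu, huT⟩ := exists_seq_tendsto_sInf hne hbdd
  choose ψ hψ hψP hψ1 hψu using huT
  set σ : ℕ → ℝ := fun k => if 0 ≤ ip G (ψ k) then 1 else -1 with hσ
  have hσ2 : ∀ k, σ k ^ 2 = 1 := fun k => by simp only [hσ]; split_ifs <;> norm_num
  set φ : ℕ → E → ℝ := fun k => σ k • ψ k with hφdef
  have hmin : S.Minimising P G (E₀ + m) φ := by
    refine ⟨fun k => isRealTest_smul _ (hψ k), fun k => hP.smul _ (hψP k), fun k => ?_,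
      fun k => ?_, ?_⟩
    · rw [hφdef, mass_smul, hσ2, hψ1, one_mul]
    · rw [hφdef, ip_smul_right]
      simp only [hσ]
      split_ifs with h0
      · simpa using h0
      · simp only [neg_mul, one_mul, Left.nonneg_neg_iff]; linarith
    · have e1 : ∀ k, S.bil (E₀ + m) (φ k) (φ k) = u k - m := fun k => by
        rw [hφdef, S.bil_smul hS _ _ (hψ k), hσ2, hshift _ (hψ k), hψ1, hψu]; ring
      simp only [e1]
      simpa [hm] using hu.sub_const m
  obtain ⟨f, D, hA, hf1, hfpos, huniq, hweak⟩ := hgap.exists_limit hmin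
  have hφm := fun k => memLp_test (hmin.test k)
  have hover : 1 - m / δ ≤ ip G f ^ 2 := by
    have hi := (tendsto_ip (fun _ => hG) hφm hG hA.memLp (tendsto_const_mass G) hA.value).pow 2
    have hr : Tendsto (fun k => 1 - (S.bil (E₀ + m) (φ k) (φ k) + m) / δ) atTop
        (𝓝 (1 - (0 + m) / δ)) := ((hmin.energy.add_const m).div_const δ).const_sub 1
    rw [zero_add] at hr
    refine le_of_tendsto_of_tendsto' hr hi fun k => ?_
    have hg := h.gap _ (hmin.test k) (hmin.sector k)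
    rw [hmin.mass_one, mul_sub, mul_one] at hg
    rw [hshift _ (hmin.test k), hmin.mass_one, sub_le_iff_le_add, ← sub_le_iff_le_add',
      le_div_iff₀ hδ]
    linarith
  have hclose : mass (f - G) ≤ 2 * c / δ := by
    have hle : ip G f ≤ 1 := by
      have := abs_ip_le hG hA.memLp
      rw [h.mass_one, hf1, Real.sqrt_one, one_mul] at this
      exact (abs_le.1 this).2
    have h2 : ip G f ^ 2 ≤ ip G f := by nlinarith
    rw [mass_sub hA.memLp hG, hf1, h.mass_one, ip_comm f G]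
    have : m / δ ≤ c / δ := (div_le_div_iff_of_pos_right hδ).2 hmc
    rw [mul_div_assoc]
    linarith
  refine ⟨E₀ + m, f, D, φ, by linarith, by linarith, hgap, hmin, hA, hf1, huniq, hweak, hclose,
    fun j => ?_⟩
  have hd : Tendsto (fun k => mass (φ k - Gs k)) atTop (𝓝 (mass (f - G))) := by
    have h1 := tendsto_mass hφm hA.memLp hA.value
    have h2 := tendsto_mass hgm hG h.approx.value
    have h3 := tendsto_ip hφm hgm hA.memLp hG hA.value h.approx.value
    rw [mass_sub hA.memLp hG]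
    exact ((h1.sub (h3.const_mul 2)).add h2).congr fun k => (mass_sub (hφm k) (hgm k)).symm
  have hdj : Tendsto (fun k => mass (dir (S.v j) (φ k) - dir (S.v j) (Gs k))) atTop
      (𝓝 (mass (D j - DG j))) := by
    have hpm := fun k => memLp_dir (hmin.test k) (S.v j)
    have hqm := fun k => memLp_dir (h.approx.test k) (S.v j)
    have h1 := tendsto_mass hpm (hA.memLp_grad j) (hA.grad j)
    have h2 := tendsto_mass hqm (h.approx.memLp_grad j) (h.approx.grad j)
    have h3 := tendsto_ip hpm hqm (hA.memLp_grad j) (h.approx.memLp_grad j) (hA.grad j)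
      (h.approx.grad j)
    rw [mass_sub (hA.memLp_grad j) (h.approx.memLp_grad j)]
    exact ((h1.sub (h3.const_mul 2)).add h2).congr fun k => (mass_sub (hpm k) (hqm k)).symm
  set C' := abs (C + 4 * abs (E₀ + m)) with hC'
  have hbnd : Tendsto (fun k => 4 * (2 * S.bil (E₀ + m) (φ k) (φ k) +
      2 * (S.bil E₀ (Gs k) (Gs k) - m * mass (Gs k))) + C' * mass (φ k - Gs k)) atTop
      (𝓝 (4 * (2 * 0 + 2 * (S.bilLim E₀ G G DG DG - m * 1)) + C' * mass (f - G))) :=
    (((hmin.energy.const_mul 2).add ((hlim.sub (hmass.const_mul m)).const_mul 2)).const_mul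
      4).add (hd.const_mul C')
  refine (le_of_tendsto_of_tendsto' hdj hbnd fun k => ?_).trans ?_
  · rw [← mass_congr (dir_sub (hmin.test k) (h.approx.test k) _)]
    refine (Finset.single_le_sum (f := fun i => mass (dir (S.v i) (φ k - Gs k)))
      (fun i _ => mass_nonneg _) (Finset.mem_univ j)).trans
      ((hC (E₀ + m) _ (isRealTest_sub (hmin.test k) (h.approx.test k))).trans ?_)
    have hb := bil_comb_le hS hP hgap.low 1 (-1) (hmin.test k) (hmin.sector k)
      (h.approx.test k) (h.sector k)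
    rw [← sub_eq_comb, hshift _ (h.approx.test k)] at hb
    have hmul := mul_le_mul_of_nonneg_right (le_abs_self (C + 4 * abs (E₀ + m)))
      (mass_nonneg (φ k - Gs k))
    rw [← hC'] at hmul
    linarith
  · have h5 : C' * mass (f - G) ≤ C' * (2 * c / δ) :=
      mul_le_mul_of_nonneg_left hclose (abs_nonneg _)
    linarith [h.value]

end Vale.Agent.P363.Exist
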