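import Vale.Agent.P363.Exist.IonGap
import Vale.Agent.P363.Inter.Bar.Spec

/-!
P363: the existence part delivers the states used by the interacting part.
-/

noncomputable section

namespace Vale.Agent.P363.Exist

/-- `MolStateGoal`. -/
theorem molStateGoal : Inter.MolStateGoal :=
  fun _ _ _ _ _ _ _ _ hz => molStates hz

end Vale.Agent.P363.Exist
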