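import Vale.Agent.P363.Exist.Slots

/-!
P363: products of orbitals on the configurations of two and three electrons.
-/

noncomputable section

namespace Vale.Agent.P363.Exist

open MeasureTheory Filter
open scoped BigOperators Topology ENNReal

/-- Product of orbitals, one for each electron. -/
def orb {n : ℕ} (p : Fin n → Space → ℝ) (x : Cfg n) : ℝ := ∏ i, p i (x i)

theorem memLp_orb {n : ℕ} {p : Fin n → Space → ℝ} (hp : ∀ i, MemLp (p i) 2) :
    MemLp (orb p) 2 := by
  have hm : AEStronglyMeasurable (orb p) volume :=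
    (Finset.aemeasurable_fun_prod _ fun i _ => ((hp i).1.aemeasurable).comp_quasiMeasurePreserving
      (Measure.quasiMeasurePreserving_eval (μ := fun _ : Fin n => (volume : Measure Space)) i)
      ).aestronglyMeasurable
  refine (memLp_two_iff_integrable_sq hm).2 ?_
  simp only [orb, ← Finset.prod_pow]
  exact Integrable.fintype_prod fun i => (hp i).integrable_sq

theorem ip_orb {n : ℕ} (p q : Fin n → Space → ℝ) :
    ip (orb p) (orb q) = ∏ i, ip (p i) (q i) := by
  simp only [ip, orb, ← Finset.prod_mul_distrib]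
  exact integral_fintype_prod_volume_eq_prod fun i x => p i x * q i x

theorem orb_two (p q : Space → ℝ) : orb ![p, q] = prod2 p q := by
  funext x; simp [orb, prod2, Fin.prod_univ_two]

theorem orb_three (p q r : Space → ℝ) : orb ![p, q, r] = prod3 p q r := by
  funext x; simp [orb, prod3, Fin.prod_univ_three]

theorem memLp_prod2 {p q : Space → ℝ} (hp : MemLp p 2) (hq : MemLp q 2) :
    MemLp (prod2 p q) 2 := by
  rw [← orb_two]; exact memLp_orb fun i => by fin_cases i <;> simpa

theorem memLp_prod3 {p q r : Space → ℝ} (hp : MemLp p 2) (hq : MemLp q 2) (hr : MemLp r 2) :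
    MemLp (prod3 p q r) 2 := by
  rw [← orb_three]; exact memLp_orb fun i => by fin_cases i <;> simpa

theorem ip_prod2 (p q p' q' : Space → ℝ) :
    ip (prod2 p q) (prod2 p' q') = ip p p' * ip q q' := by
  rw [← orb_two, ← orb_two, ip_orb, Fin.prod_univ_two]; rfl

theorem ip_prod3 (p q r p' q' r' : Space → ℝ) :
    ip (prod3 p q r) (prod3 p' q' r') = ip p p' * ip q q' * ip r r' := by
  rw [← orb_three, ← orb_three, ip_orb, Fin.prod_univ_three]; rfl

/-- The state `(p ⊗ q + σ q ⊗ p) / √2`. -/
def mix (σ : ℝ) (p q : Space → ℝ) : Cfg 2 → ℝ :=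
  (√2)⁻¹ • prod2 p q + (σ * (√2)⁻¹) • prod2 q p

theorem memLp_mix (σ : ℝ) {p q : Space → ℝ} (hp : MemLp p 2) (hq : MemLp q 2) :
    MemLp (mix σ p q) 2 :=
  ((memLp_prod2 hp hq).const_smul _).add ((memLp_prod2 hq hp).const_smul _)

theorem mass_mix {σ : ℝ} (hσ : σ ^ 2 = 1) {p q : Space → ℝ} (hp : MemLp p 2) (hq : MemLp q 2)
    (h1 : mass p = 1) (h2 : mass q = 1) (h3 : ip p q = 0) : mass (mix σ p q) = 1 := by
  rw [mix, mass_comb _ _ (memLp_prod2 hp hq) (memLp_prod2 hq hp), ← ip_self, ← ip_self (prod2 q p),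
    ip_prod2, ip_prod2, ip_prod2, ip_self, ip_self, h1, h2, h3, mul_pow, hσ, inv_pow,
    Real.sq_sqrt zero_le_two]
  norm_num

/-- Exchanging the two electrons. -/
theorem ip_swap (p q : Space → ℝ) {φ : Cfg 2 → ℝ} :
    ip (prod2 q p) φ = ip (prod2 p q) (φ ∘ slotMap (LinearIsometryEquiv.refl ℝ Space)
      (Equiv.swap 0 1)) := by
  rw [← ip_comp (measurePreserving_slotMap (LinearIsometryEquiv.refl ℝ Space) (Equiv.swap 0 1))
    (prod2 q p) φ]
  refine ip_congr (Eventually.of_forall fun x => ?_) (EventuallyEq.refl _ _)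
  simp [prod2, slotMap_apply, mul_comm]

/-- The component along a product is an iterated component. -/
theorem ip_prod2_iter {p q : Space → ℝ} (hp : MemLp p 2) (hq : MemLp q 2) {φ : Cfg 2 → ℝ}
    (hφ : MemLp φ 2) :
    ip (prod2 p q) φ = ip q fun y => ip p fun x => φ ![x, y] := by
  rw [ip, integral_cfg2 (show Integrable fun x => prod2 p q x * φ x from
    (memLp_prod2 hp hq).integrable_mul hφ)]
  simp only [ip, prod2, Matrix.cons_val_zero, Matrix.cons_val_one, ← integral_const_mul]
  exact integral_congr_ae (Eventually.of_forall fun y =>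
    integral_congr_ae (Eventually.of_forall fun x => by ring))

end Vale.Agent.P363.Exist
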