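import Vale.Agent.P363.Exist.Orb

/-!
P363: the uncoupled form on products of orbitals, and limits of such products.
-/

noncomputable section

namespace Vale.Agent.P363.Exist

open MeasureTheory Filter
open scoped BigOperators Topology ENNReal

variable {n : ℕ}

theorem isRealTest_orb [Nonempty (Fin n)] {p : Fin n → Space → ℝ} (hp : ∀ i, IsRealTest (p i)) :
    IsRealTest (orb p) := by
  have key : ∀ s : Finset (Fin n), ∃ K : NNReal, ∃ B : ℝ, 0 ≤ B ∧
      LipschitzWith K (fun x : Cfg n => ∏ i ∈ s, p i (x i)) ∧ ∀ x : Cfg n,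
        |∏ i ∈ s, p i (x i)| ≤ B := by
    intro s
    induction s using Finset.induction_on with
    | empty => exact ⟨0, 1, zero_le_one, by simpa using LipschitzWith.const (1 : ℝ), by simp⟩
    | @insert j s hj ih =>
      obtain ⟨K, B, hB0, hK, hB⟩ := ih
      obtain ⟨L, hL⟩ := (hp j).lipschitz
      obtain ⟨A, hA⟩ := (hp j).compact.exists_bound_of_continuous hL.continuous
      have hA0 : 0 ≤ A := (norm_nonneg _).trans (hA 0)
      have hL' : LipschitzWith L fun x : Cfg n => p j (x j) :=
        LipschitzWith.of_dist_le_mul fun x y => (hL.dist_le_mul _ _).trans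
          (mul_le_mul_of_nonneg_left (dist_le_pi_dist x y j) L.coe_nonneg)
      refine ⟨(A * K + B * L).toNNReal, A * B, mul_nonneg hA0 hB0, ?_, fun x => ?_⟩
      · refine LipschitzWith.of_dist_le_mul fun x y => ?_
        simp only [Finset.prod_insert hj]
        rw [Real.coe_toNNReal _ (by positivity), Real.dist_eq,
          show p j (x j) * ∏ i ∈ s, p i (x i) - p j (y j) * ∏ i ∈ s, p i (y i) =
            p j (x j) * ((∏ i ∈ s, p i (x i)) - ∏ i ∈ s, p i (y i)) +
              (∏ i ∈ s, p i (y i)) * (p j (x j) - p j (y j)) by ring, add_mul]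
        refine (abs_add_le _ _).trans (add_le_add ?_ ?_)
        · rw [abs_mul, mul_assoc, ← Real.dist_eq]
          exact mul_le_mul (hA _) (hK.dist_le_mul x y) dist_nonneg hA0
        · rw [abs_mul, mul_assoc, ← Real.dist_eq]
          exact mul_le_mul (hB y) (hL'.dist_le_mul x y) dist_nonneg hB0
      · rw [Finset.prod_insert hj, abs_mul]
        exact mul_le_mul (hA _) (hB x) (abs_nonneg _) hA0
  obtain ⟨K, -, -, hK, -⟩ := key Finset.univ
  refine ⟨⟨K, hK⟩, HasCompactSupport.intro
    (isCompact_univ_pi fun i => (hp i).compact.isCompact) fun x hx => ?_⟩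
  simp only [Set.mem_pi, Set.mem_univ, true_implies, not_forall] at hx
  obtain ⟨i, hi⟩ := hx
  exact Finset.prod_eq_zero (Finset.mem_univ i) (image_eq_zero_of_notMem_tsupport hi)

theorem dir_orb {p : Fin n → Space → ℝ} (hp : ∀ i, IsRealTest (p i)) (q : Fin n × Fin 3) :
    dir (dirs q) (orb p) =ᵐ[volume]
      orb (Function.update p q.1 (deriv3 q.2 (p q.1))) := by
  have hd : ∀ᵐ x : Cfg n, ∀ j, DifferentiableAt ℝ (p j) (x j) := by
    rw [ae_all_iff]
    intro j
    obtain ⟨K, hK⟩ := (hp j).lipschitz
    exact (Measure.quasiMeasurePreserving_eval (μ := fun _ : Fin n => (volume : Measure Space))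
      j).ae hK.ae_differentiableAt
  filter_upwards [hd] with x hx
  have hj : ∀ j ∈ (Finset.univ : Finset (Fin n)), HasFDerivAt (fun y : Cfg n => p j (y j))
      ((fderiv ℝ (p j) (x j)).comp (ContinuousLinearMap.proj j)) x := fun j _ =>
    (hx j).hasFDerivAt.comp x (hasFDerivAt_apply j x)
  have h := (HasFDerivAt.finsetProd hj).fderiv
  rw [dir]
  unfold orb
  rw [h]
  simp only [sum_apply, smul_apply, ContinuousLinearMap.coe_comp, Function.comp_apply,
    ContinuousLinearMap.proj_apply, smul_eq_mul]
  rw [Finset.sum_eq_single q.1 (fun j _ hjq => by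
    rw [dirs, Pi.single_eq_of_ne hjq]; simp) (by simp)]
  rw [← Finset.mul_prod_erase _ _ (Finset.mem_univ q.1), Function.update_self, dirs,
    Pi.single_eq_same, deriv3, mul_comm]
  exact congrArg _ (Finset.prod_congr rfl fun j hj => by
    rw [Function.update_of_ne (Finset.ne_of_mem_erase hj)])

theorem prod_update {β : Type*} (p p' : Fin n → β) (f : β → β → ℝ) (i : Fin n) (a a' : β) :
    ∏ j, f (Function.update p i a j) (Function.update p' i a' j) =
      f a a' * ∏ j ∈ Finset.univ.erase i, f (p j) (p' j) := by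
  rw [← Finset.mul_prod_erase _ _ (Finset.mem_univ i), Function.update_self, Function.update_self]
  exact congrArg _ (Finset.prod_congr rfl fun j hj => by
    rw [Function.update_of_ne (Finset.ne_of_mem_erase hj),
      Function.update_of_ne (Finset.ne_of_mem_erase hj)])

/-- The uncoupled form on two products. -/
theorem bil_orb [Nonempty (Fin n)] (l : ℝ) (e : Fin n → ℝ) {p q : Fin n → Space → ℝ}
    (hp : ∀ i, IsRealTest (p i)) (hq : ∀ i, IsRealTest (q i)) :
    (molSys n l 0).bil (∑ i, e i) (orb p) (orb q) =
      ∑ i, (oneSys l).bil (e i) (p i) (q i) * ∏ j ∈ Finset.univ.erase i, ip (p j) (q j) := by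
  have hP := isRealTest_orb hp
  have hQ := isRealTest_orb hq
  have hkin : ∑ k : Fin n × Fin 3, ip (dir (dirs k) (orb p)) (dir (dirs k) (orb q)) =
      ∑ i, (∑ a, ip (deriv3 a (p i)) (deriv3 a (q i))) *
        ∏ j ∈ Finset.univ.erase i, ip (p j) (q j) := by
    rw [Fintype.sum_prod_type]
    refine Finset.sum_congr rfl fun i _ => ?_
    rw [Finset.sum_mul]
    refine Finset.sum_congr rfl fun a _ => ?_
    rw [ip_congr (dir_orb hp (i, a)) (dir_orb hq (i, a)), ip_orb]
    exact prod_update p q ip i _ _
  set F : Fin n → Fin n → Space → ℝ := fun i => Function.update (fun j r => p j r * q j r) i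
    (fun r => (-attract l r - e i) * p i r * q i r) with hF
  have hFi : ∀ i j, Integrable (F i j) := by
    intro i j
    rcases eq_or_ne j i with rfl | hji
    · simp only [hF, Function.update_self]
      exact (oneSys_good l).integrable_shift (e j) (hp j) (hq j)
    · simp only [hF, Function.update_of_ne hji]
      exact (memLp_test (hp j)).integrable_mul (memLp_test (hq j))
  have hint : ∀ i, Integrable fun x : Cfg n => ∏ j, F i j (x j) := fun i =>
    Integrable.fintype_prod (hFi i)
  have hpot : (∫ x, ((molSys n l 0).V x - ∑ i, e i) * orb p x * orb q x) =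
      ∑ i, (∫ r, (-attract l r - e i) * p i r * q i r) *
        ∏ j ∈ Finset.univ.erase i, ip (p j) (q j) := by
    have hx : ∀ x : Cfg n, ((molSys n l 0).V x - ∑ i, e i) * orb p x * orb q x =
        ∑ i, ∏ j, F i j (x j) := by
      intro x
      have : ∀ i, ∏ j, F i j (x j) = (-attract l (x i) - e i) * (orb p x * orb q x) := by
        intro i
        rw [← Finset.mul_prod_erase _ _ (Finset.mem_univ i), orb, orb, ← Finset.prod_mul_distrib,
          ← Finset.mul_prod_erase _ (fun j => p j (x j) * q j (x j)) (Finset.mem_univ i)]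
        simp only [hF, Function.update_self]
        rw [Finset.prod_congr rfl fun j hj => by
          rw [Function.update_of_ne (Finset.ne_of_mem_erase hj)]]
        ring
      simp only [this, ← Finset.sum_mul, molSys, molPot, zero_mul, add_zero,
        Finset.sum_sub_distrib, Finset.sum_neg_distrib]
      ring
    simp only [hx]
    rw [integral_finsetSum _ fun i _ => hint i]
    refine Finset.sum_congr rfl fun i _ => ?_
    rw [integral_fintype_prod_volume_eq_prod (F i), ← Finset.mul_prod_erase _ _ (Finset.mem_univ i)]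
    simp only [hF, Function.update_self]
    exact congrArg _ (Finset.prod_congr rfl fun j hj => by
      rw [Function.update_of_ne (Finset.ne_of_mem_erase hj)]; rfl)
  rw [Sys.bil, show (molSys n l 0).v = dirs from rfl, hkin, hpot, Finset.mul_sum,
    ← Finset.sum_add_distrib]
  refine Finset.sum_congr rfl fun i _ => ?_
  rw [Sys.bil]
  simp only [oneSys, dir_unit3]
  ring

/-- Products of converging orbitals converge. -/
theorem tendsto_orb {p : ℕ → Fin n → Space → ℝ} {f : Fin n → Space → ℝ}
    (hp : ∀ k i, MemLp (p k i) 2) (hf : ∀ i, MemLp (f i) 2)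
    (h : ∀ i, Tendsto (fun k => mass (p k i - f i)) atTop (𝓝 0)) :
    Tendsto (fun k => mass (orb (p k) - orb f)) atTop (𝓝 0) := by
  have e : ∀ k, mass (orb (p k) - orb f) =
      (∏ i, ip (p k i) (p k i)) - 2 * (∏ i, ip (p k i) (f i)) + ∏ i, ip (f i) (f i) := fun k => by
    rw [mass_sub (memLp_orb (hp k)) (memLp_orb hf), ← ip_self, ← ip_self (orb f), ip_orb, ip_orb,
      ip_orb]
  simp only [e]
  have h1 := tendsto_finsetProd (Finset.univ : Finset (Fin n)) fun i _ =>
    tendsto_ip (fun k => hp k i) (fun k => hp k i) (hf i) (hf i) (h i) (h i)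
  have h2 := tendsto_finsetProd (Finset.univ : Finset (Fin n)) fun i _ =>
    tendsto_ip (fun k => hp k i) (fun _ => hf i) (hf i) (hf i) (h i) (tendsto_const_mass (f i))
  have h3 := (h1.sub (h2.const_mul 2)).add_const (∏ i, ip (f i) (f i))
  simpa [sub_eq_add_neg, two_mul] using h3

/-- Products of orbitals converge with their gradients. -/
theorem approx_orb [Nonempty (Fin n)] (l : ℝ) {p : ℕ → Fin n → Space → ℝ}
    {f : Fin n → Space → ℝ} {D : Fin n → Fin 3 → Space → ℝ}
    (h : ∀ i, (oneSys l).Approx (fun k => p k i) (f i) (D i)) :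
    (molSys n l 0).Approx (fun k => orb (p k)) (orb f)
      (fun q => orb (Function.update f q.1 (D q.1 q.2))) := by
  have hm : ∀ (q : Fin n × Fin 3) i, MemLp (Function.update f q.1 (D q.1 q.2) i) 2 := fun q i => by
    rcases eq_or_ne i q.1 with rfl | hi
    · rw [Function.update_self]; exact (h _).memLp_grad _
    · rw [Function.update_of_ne hi]; exact (h i).memLp
  refine ⟨fun k => isRealTest_orb fun i => (h i).test k, memLp_orb fun i => (h i).memLp,
    fun q => memLp_orb (hm q), tendsto_orb (fun k i => memLp_test ((h i).test k))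
      (fun i => (h i).memLp) fun i => (h i).value, fun q => ?_⟩
  refine Tendsto.congr (f₁ := fun k =>
    mass (orb (Function.update (p k) q.1 (deriv3 q.2 (p k q.1))) -
      orb (Function.update f q.1 (D q.1 q.2)))) (fun k => ?_) ?_
  · exact mass_congr ((dir_orb (fun i => (h i).test k) q).symm.sub (EventuallyEq.refl _ _))
  · refine tendsto_orb (fun k i => ?_) (hm q) fun i => ?_
    · rcases eq_or_ne i q.1 with rfl | hi
      · rw [Function.update_self]; exact memLp_dir ((h _).test k) _
      · rw [Function.update_of_ne hi]; exact memLp_test ((h i).test k)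
    · rcases eq_or_ne i q.1 with rfl | hi
      · simp only [Function.update_self]; exact (h _).grad q.2
      · simp only [Function.update_of_ne hi]; exact (h i).value

theorem approx_comb {E ι : Type} [NormedAddCommGroup E] [NormedSpace ℝ E] [FiniteDimensional ℝ E]
    [MeasureSpace E] [BorelSpace E] [(volume : Measure E).IsAddHaarMeasure]
    {S : Sys E ι} {φ χ : ℕ → E → ℝ} {f g : E → ℝ} {D D' : ι → E → ℝ}
    (h : S.Approx φ f D) (h' : S.Approx χ g D') (a b : ℝ) :
    S.Approx (fun k => a • φ k + b • χ k) (a • f + b • g) fun j => a • D j + b • D' j := by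
  have key : ∀ {x y : ℕ → E → ℝ} {u v : E → ℝ}, (∀ k, MemLp (x k) 2) → (∀ k, MemLp (y k) 2) →
      MemLp u 2 → MemLp v 2 → Tendsto (fun k => mass (x k - u)) atTop (𝓝 0) →
      Tendsto (fun k => mass (y k - v)) atTop (𝓝 0) →
      Tendsto (fun k => mass ((a • x k + b • y k) - (a • u + b • v))) atTop (𝓝 0) := by
    intro x y u v hx hy hu hv h1 h2
    refine squeeze_zero (fun k => mass_nonneg _) (fun k => ?_)
      (g := fun k => 2 * (a ^ 2 * mass (x k - u)) + 2 * (b ^ 2 * mass (y k - v)))
      (by simpa using ((h1.const_mul (a ^ 2)).const_mul 2).add ((h2.const_mul (b ^ 2)).const_mul 2))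
    have h0 := mass_nonneg (a • (x k - u) + (-b) • (y k - v))
    rw [mass_comb _ _ ((hx k).sub hu) ((hy k).sub hv)] at h0
    rw [show (a • x k + b • y k) - (a • u + b • v) = a • (x k - u) + b • (y k - v) by
        rw [smul_sub, smul_sub]; abel, mass_comb _ _ ((hx k).sub hu) ((hy k).sub hv)]
    linarith [show (-b) ^ 2 = b ^ 2 by ring, show a * -b = -(a * b) by ring]
  refine ⟨fun k => isRealTest_comb a b (h.test k) (h'.test k),
    (h.memLp.const_smul a).add (h'.memLp.const_smul b),
    fun j => ((h.memLp_grad j).const_smul a).add ((h'.memLp_grad j).const_smul b),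
    key (fun k => memLp_test (h.test k)) (fun k => memLp_test (h'.test k)) h.memLp h'.memLp
      h.value h'.value, fun j => ?_⟩
  refine Tendsto.congr (fun k => ?_) (key (fun k => memLp_dir (h.test k) (S.v j))
    (fun k => memLp_dir (h'.test k) (S.v j)) (h.memLp_grad j) (h'.memLp_grad j) (h.grad j)
    (h'.grad j))
  exact mass_congr ((dir_comb a b (h.test k) (h'.test k) _).symm.sub (EventuallyEq.refl _ _))

end Vale.Agent.P363.Exist
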