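import Vale.Agent.P363.Exist.Form

/-!
P363: Bessel's inequality for two orthonormal systems acting in the two variables of a function.
-/

noncomputable section

namespace Vale.Agent.P363.Exist

open MeasureTheory Filter
open scoped BigOperators Topology ENNReal

section bessel

variable {α : Type*} [MeasureSpace α] {J : Type*} [Fintype J] [DecidableEq J]

/-- An orthonormal system in `L²`. -/
structure IsOrtho (e : J → α → ℝ) : Prop where
  memLp : ∀ j, MemLp (e j) 2
  orth : ∀ i j, ip (e i) (e j) = if i = j then 1 else 0

omit [DecidableEq J] in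
theorem toLp_sum {e : J → α → ℝ} (he : ∀ j, MemLp (e j) 2) (c : J → ℝ)
    (h : MemLp (∑ j, c j • e j) 2) : h.toLp (∑ j, c j • e j) = ∑ j, c j • (he j).toLp (e j) := by
  refine Lp.ext ?_
  filter_upwards [h.coeFn_toLp, Lp.coeFn_finsetSum Finset.univ fun j => c j • (he j).toLp (e j),
    eventually_countable_forall.2 fun j => Lp.coeFn_smul (c j) ((he j).toLp (e j)),
    eventually_countable_forall.2 fun j => (he j).coeFn_toLp] with x h1 h2 h3 h4
  rw [h1, h2, Finset.sum_apply, Finset.sum_apply]
  exact Finset.sum_congr rfl fun j _ => by rw [h3, Pi.smul_apply, Pi.smul_apply, h4]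

/-- What is left after removing the components along an orthonormal system. -/
theorem mass_bessel {e : J → α → ℝ} (he : IsOrtho e) {f : α → ℝ} (hf : MemLp f 2) :
    mass (f - ∑ j, ip (e j) f • e j) = mass f - ∑ j, ip (e j) f ^ 2 := by
  have hon : Orthonormal ℝ fun j => (he.memLp j).toLp (e j) :=
    orthonormal_iff_ite.2 fun i j => by rw [inner_toLp, he.orth]
  have hs : MemLp (∑ j, ip (e j) f • e j) 2 :=
    memLp_finsetSum' _ fun j _ => (he.memLp j).const_smul _
  rw [← norm_toLp_sq (hf.sub hs), MemLp.toLp_sub hf hs, toLp_sum he.memLp _ hs,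
    norm_sub_sq_real, norm_toLp_sq, inner_sum, ← real_inner_self_eq_norm_sq,
    hon.inner_sum]
  simp only [real_inner_smul_right, inner_toLp, ip_comm f, conj_trivial, ← sq]
  ring

theorem bessel {e : J → α → ℝ} (he : IsOrtho e) {f : α → ℝ} (hf : MemLp f 2) :
    ∑ j, ip (e j) f ^ 2 ≤ mass f := by
  have := mass_nonneg (f - ∑ j, ip (e j) f • e j)
  rw [mass_bessel he hf] at this
  linarith

end bessel

theorem ortho_single {α : Type*} [MeasureSpace α] {g : α → ℝ} (hg : MemLp g 2) (h : mass g = 1) :
    IsOrtho fun _ : Fin 1 => g :=
  ⟨fun _ => hg, fun i j => by rw [ip_self, h, if_pos (Subsingleton.elim i j)]⟩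

theorem ortho_pair {α : Type*} [MeasureSpace α] {g u : α → ℝ} (hg : MemLp g 2) (hu : MemLp u 2)
    (h1 : mass g = 1) (h2 : mass u = 1) (h3 : ip g u = 0) : IsOrtho ![g, u] :=
  ⟨fun j => by fin_cases j <;> simpa, fun i j => by
    fin_cases i <;> fin_cases j <;> simp [ip_self, h1, h2, h3, ip_comm u g]⟩

section twoVariables

variable {X Y : Type} [NormedAddCommGroup X] [NormedSpace ℝ X] [FiniteDimensional ℝ X]
  [MeasureSpace X] [BorelSpace X] [(volume : Measure X).IsAddHaarMeasure]
  [NormedAddCommGroup Y] [NormedSpace ℝ Y] [FiniteDimensional ℝ Y]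
  [MeasureSpace Y] [BorelSpace Y] [(volume : Measure Y).IsAddHaarMeasure]
  {F : X → Y → ℝ}

omit [NormedSpace ℝ X] [FiniteDimensional ℝ X] [MeasureSpace X] [BorelSpace X]
  [(volume : Measure X).IsAddHaarMeasure] [NormedSpace ℝ Y] [FiniteDimensional ℝ Y]
  [MeasureSpace Y] [BorelSpace Y] [(volume : Measure Y).IsAddHaarMeasure] in
theorem slice_compact (hs : HasCompactSupport (Function.uncurry F)) (y : Y) :
    HasCompactSupport fun x => F x y :=
  HasCompactSupport.intro (hs.isCompact.image continuous_fst) fun x hx =>
    image_eq_zero_of_notMem_tsupport (f := Function.uncurry F) (x := (x, y))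
      fun h => hx ⟨_, h, rfl⟩

/-- A product is square integrable. -/
theorem memLp_tensor {a : X → ℝ} {b : Y → ℝ} (ha : MemLp a 2) (hb : MemLp b 2) :
    MemLp (fun z : X × Y => a z.1 * b z.2) 2 ((volume : Measure X).prod volume) := by
  refine (memLp_two_iff_integrable_sq
    ((ha.1.comp_fst).mul (hb.1.comp_snd))).2 ?_
  simp only [Pi.mul_apply, mul_pow]
  exact ha.integrable_sq.mul_prod hb.integrable_sq

/-- Components of a test function along a square integrable function of one variable. -/
theorem memLp_coef (hc : Continuous (Function.uncurry F))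
    (hs : HasCompactSupport (Function.uncurry F)) {a : X → ℝ} (ha : MemLp a 2) :
    MemLp (fun y => ip a fun x => F x y) 2 := by
  obtain ⟨B, hB⟩ := hs.exists_bound_of_continuous hc
  have hKX : IsCompact (Prod.fst '' tsupport (Function.uncurry F)) :=
    hs.isCompact.image continuous_fst
  have hKY : IsCompact (Prod.snd '' tsupport (Function.uncurry F)) :=
    hs.isCompact.image continuous_snd
  set KX := Prod.fst '' tsupport (Function.uncurry F)
  set KY := Prod.snd '' tsupport (Function.uncurry F)
  have hi : MemLp (KX.indicator fun _ => B) 2 (volume : Measure X) :=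
    memLp_indicator_const 2 hKX.measurableSet _ (Or.inr hKX.measure_lt_top.ne)
  set M := ∫ x, |a x| * KX.indicator (fun _ => B) x
  have hzero : ∀ x y, x ∉ KX ∨ y ∉ KY → F x y = 0 := fun x y h =>
    image_eq_zero_of_notMem_tsupport (f := Function.uncurry F) (x := (x, y)) fun hm =>
      h.elim (fun h => h ⟨_, hm, rfl⟩) fun h => h ⟨_, hm, rfl⟩
  have hm : AEStronglyMeasurable (fun y => ip a fun x => F x y) (volume : Measure Y) := by
    have : AEStronglyMeasurable (fun z : Y × X => a z.2 * F z.2 z.1)
        ((volume : Measure Y).prod volume) :=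
      ha.1.comp_snd.mul (hc.comp continuous_swap).aestronglyMeasurable
    exact this.integral_prod_right'
  refine (memLp_indicator_const 2 hKY.measurableSet M (Or.inr hKY.measure_lt_top.ne)).mono hm
    (Eventually.of_forall fun y => ?_)
  by_cases hy : y ∈ KY
  · rw [Set.indicator_of_mem hy, Real.norm_eq_abs M]
    refine le_trans ((norm_integral_le_of_norm_le
      (g := fun x => |a x| * KX.indicator (fun _ => B) x) ?_) ?_) (le_abs_self M)
    · exact (ha.norm.integrable_mul hi).congr (Eventually.of_forall fun x => by simp)
    · refine Eventually.of_forall fun x => ?_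
      rw [norm_mul, Real.norm_eq_abs (a x)]
      refine mul_le_mul_of_nonneg_left ?_ (abs_nonneg _)
      show ‖F x y‖ ≤ _
      by_cases hx : x ∈ KX
      · rw [Set.indicator_of_mem hx]; exact hB (x, y)
      · rw [Set.indicator_of_notMem hx, hzero x y (Or.inl hx), norm_zero]
  · simp [ip, hzero _ y (Or.inr hy)]

omit [NormedSpace ℝ X] [FiniteDimensional ℝ X] [MeasureSpace X] [BorelSpace X]
  [(volume : Measure X).IsAddHaarMeasure] [NormedSpace ℝ Y] [FiniteDimensional ℝ Y]
  [MeasureSpace Y] [BorelSpace Y] [(volume : Measure Y).IsAddHaarMeasure] in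
theorem uncurry_flip (hc : Continuous (Function.uncurry F))
    (hs : HasCompactSupport (Function.uncurry F)) :
    Continuous (Function.uncurry fun y x => F x y) ∧
      HasCompactSupport (Function.uncurry fun y x => F x y) :=
  ⟨hc.comp continuous_swap, hs.comp_homeomorph (Homeomorph.prodComm Y X)⟩

/-- Two orthonormal systems in the two variables: their squared components exceed the squared
norm by at most the squares of the joint components. -/
theorem two_proj {J K : Type} [Fintype J] [DecidableEq J] [Fintype K] [DecidableEq K]
    {e : J → X → ℝ} {h : K → Y → ℝ} (he : IsOrtho e) (hh : IsOrtho h)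
    (hc : Continuous (Function.uncurry F)) (hs : HasCompactSupport (Function.uncurry F)) :
    ∑ j, mass (fun y => ip (e j) fun x => F x y) + ∑ k, mass (fun x => ip (h k) (F x)) ≤
      (∫ y, mass fun x => F x y) + ∑ j, ∑ k, ip (h k) (fun y => ip (e j) fun x => F x y) ^ 2 := by
  obtain ⟨hc', hs'⟩ := uncurry_flip hc hs
  set c : J → Y → ℝ := fun j y => ip (e j) fun x => F x y with hcdef
  set d : K → X → ℝ := fun k x => ip (h k) (F x) with hddef
  have hcm : ∀ j, MemLp (c j) 2 := fun j => memLp_coef hc hs (he.memLp j)
  have hdm : ∀ k, MemLp (d k) 2 := fun k => memLp_coef hc' hs' (hh.memLp k)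
  have hsy : ∀ y, MemLp (fun x => F x y) 2 := fun y =>
    (hc.comp (Continuous.prodMk_left y)).memLp_of_hasCompactSupport (slice_compact hs y)
  have hsx : ∀ x, MemLp (F x) 2 := fun x =>
    (hc.comp (Continuous.prodMk_right x)).memLp_of_hasCompactSupport (slice_compact hs' x)
  have hFm : MemLp (Function.uncurry F) 2 ((volume : Measure X).prod volume) :=
    hc.memLp_of_hasCompactSupport hs
  set H : X × Y → ℝ := fun z => F z.1 z.2 - ∑ j, e j z.1 * c j z.2 with hHdef
  have hHm : MemLp H 2 ((volume : Measure X).prod volume) :=
    hFm.sub (memLp_finsetSum _ fun j _ => memLp_tensor (he.memLp j) (hcm j))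
  have hHx : ∀ x, (fun y => H (x, y)) = F x - ∑ j, e j x • c j := fun x => by
    funext y; simp [hHdef, Finset.sum_apply]
  have hHy : ∀ y, (fun x => H (x, y)) = (fun x => F x y) - ∑ j, c j y • e j := fun y => by
    funext x; simp [hHdef, Finset.sum_apply, mul_comm]
  have hHmx : ∀ x, MemLp (fun y => H (x, y)) 2 := fun x => by
    rw [hHx]; exact (hsx x).sub (memLp_finsetSum' _ fun j _ => (hcm j).const_smul _)
  have hdec : ∀ k x, ip (h k) (fun y => H (x, y)) = (d k - ∑ j, ip (e j) (d k) • e j) x := by
    intro k x
    have hM : ∀ j, ip (e j) (d k) = ip (h k) (c j) := by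
      intro j
      have hint : Integrable (Function.uncurry fun x y => e j x * (h k y * F x y))
          ((volume : Measure X).prod volume) := by
        have := (memLp_tensor (he.memLp j) (hh.memLp k)).integrable_mul hFm
        exact this.congr (Eventually.of_forall fun z => by
          simp only [Pi.mul_apply, Function.uncurry]; ring)
      simp only [ip, hddef, hcdef, ← integral_const_mul]
      rw [integral_integral_swap hint]
      exact integral_congr_ae (Eventually.of_forall fun y =>
        integral_congr_ae (Eventually.of_forall fun x => by ring))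
    rw [hHx, sub_eq_comb, ip_comb' _ _ (hh.memLp k) (hsx x)
      (memLp_finsetSum' _ fun j _ => (hcm j).const_smul _)]
    have hsum : ip (h k) (∑ j, e j x • c j) = ∑ j, e j x * ip (h k) (c j) := by
      simp only [ip, Finset.sum_apply, Pi.smul_apply, smul_eq_mul, Finset.mul_sum]
      rw [integral_finsetSum _ fun j _ => ?_]
      · refine Finset.sum_congr rfl fun j _ => ?_
        rw [← integral_const_mul]
        exact integral_congr_ae (Eventually.of_forall fun y => by ring)
      · exact (((hh.memLp k).integrable_mul (hcm j)).const_mul (e j x)).congr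
          (Eventually.of_forall fun y => by simp only [Pi.mul_apply]; ring)
    rw [hsum]
    simp only [Pi.sub_apply, Finset.sum_apply, Pi.smul_apply, smul_eq_mul, hM]
    simp only [hddef, mul_comm (e _ x)]
    ring
  have hH2 : Integrable (fun z => H z ^ 2) ((volume : Measure X).prod volume) :=
    hHm.integrable_sq
  have key : ∑ k, mass (fun x => ip (h k) fun y => H (x, y)) ≤ ∫ x, mass fun y => H (x, y) := by
    have hk : ∀ k, MemLp (fun x => ip (h k) fun y => H (x, y)) 2 := fun k => by
      simp only [hdec k]
      exact (hdm k).sub (memLp_finsetSum' _ fun j _ => (he.memLp j).const_smul _)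
    simp only [mass]
    rw [← integral_finsetSum _ fun k _ => (hk k).integrable_sq]
    exact integral_mono (integrable_finsetSum _ fun k _ => (hk k).integrable_sq)
      hH2.integral_prod_left fun x => bessel hh (hHmx x)
  have hFy : Integrable fun y => ∫ x, F x y ^ 2 := hFm.integrable_sq.integral_prod_right
  have hswap : (∫ x, mass fun y => H (x, y)) = ∫ y, mass fun x => H (x, y) := by
    simp only [mass]
    exact integral_integral_swap (f := fun x y => H (x, y) ^ 2) hH2
  have hfin : (∫ y, mass fun x => H (x, y)) = (∫ y, mass fun x => F x y) - ∑ j, mass (c j) := by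
    simp only [mass, ← integral_finsetSum _ fun j (_ : j ∈ Finset.univ) => (hcm j).integrable_sq]
    rw [← integral_sub hFy (integrable_finsetSum _ fun j _ => (hcm j).integrable_sq)]
    refine integral_congr_ae (Eventually.of_forall fun y => ?_)
    have := mass_bessel he (hsy y)
    rw [← hHy y] at this
    exact this
  have hleft : ∀ k, mass (fun x => ip (h k) fun y => H (x, y)) =
      mass (d k) - ∑ j, ip (h k) (c j) ^ 2 := fun k => by
    simp only [hdec k]
    rw [mass_bessel he (hdm k)]
    refine congrArg _ (Finset.sum_congr rfl fun j _ => ?_)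
    congr 1
    have hint : Integrable (Function.uncurry fun x y => e j x * (h k y * F x y))
        ((volume : Measure X).prod volume) := by
      have := (memLp_tensor (he.memLp j) (hh.memLp k)).integrable_mul hFm
      exact this.congr (Eventually.of_forall fun z => by
        simp only [Pi.mul_apply, Function.uncurry]; ring)
    simp only [ip, hddef, hcdef, ← integral_const_mul]
    rw [integral_integral_swap hint]
    exact integral_congr_ae (Eventually.of_forall fun y =>
      integral_congr_ae (Eventually.of_forall fun x => by ring))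
  rw [hswap, hfin, Finset.sum_congr rfl fun k _ => hleft k, Finset.sum_sub_distrib,
    Finset.sum_comm] at key
  linarith

end twoVariables

end Vale.Agent.P363.Exist
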