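import Vale.Agent.P363.Exist.Mol
import Vale.Agent.P363.Exist.Proj

/-!
P363: one-body terms bounded below through slices, and integrals over two positions.
-/

noncomputable section

namespace Vale.Agent.P363.Exist

open MeasureTheory Filter
open scoped BigOperators Topology ENNReal

variable {n m : ℕ}

/-- The one-body part of the form belonging to electron `i`. -/
def oneTerm (l : ℝ) (i : Fin n) (φ : Cfg n → ℝ) : ℝ :=
  ∫ x, ((1 / 2 : ℝ) * ∑ a, slotDeriv i a φ x ^ 2 - attract l (x i) * φ x ^ 2)

/-- The component along `g` in the position of electron `i`. -/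
def coef (g : Space → ℝ) (i : Fin (m + 1)) (φ : Cfg (m + 1) → ℝ) (y : Cfg m) : ℝ :=
  ip g fun r => φ (i.insertNth r y)

theorem integrable_attract_slot (l : ℝ) {φ : Cfg n → ℝ} (hφ : IsRealTest φ) (i : Fin n) :
    Integrable fun x => attract l (x i) * φ x ^ 2 := by
  have hp := (coulomb_real hφ (P349.slotProj i) (P349.slotProj_slotVec i) (nuc l)).1
  have hm := (coulomb_real hφ (P349.slotProj i) (P349.slotProj_slotVec i) (-nuc l)).1
  simp only [P349.slotProj_apply, sub_neg_eq_add] at hp hm
  exact (hp.add hm).congr (Eventually.of_forall fun x => by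
    simp only [Pi.add_apply, attract]; ring)

theorem integrable_oneTerm (l : ℝ) {φ : Cfg n → ℝ} (hφ : IsRealTest φ) (i : Fin n) :
    Integrable fun x => (1 / 2 : ℝ) * ∑ a, slotDeriv i a φ x ^ 2 - attract l (x i) * φ x ^ 2 :=
  ((integrable_finsetSum _ fun a _ => (memLp_dir hφ (dirs (i, a))).integrable_sq).const_mul _).sub
    (integrable_attract_slot l hφ i)

/-- For nonnegative coupling the form is above the sum of its one-body terms. -/
theorem sum_oneTerm_le (l : ℝ) {lam : ℝ} (h : lam ∈ Set.Icc (0 : ℝ) 1) {φ : Cfg n → ℝ}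
    (hφ : IsRealTest φ) : ∑ i, oneTerm l i φ ≤ formQ l lam φ := by
  rw [formQ]
  simp only [oneTerm]
  rw [← integral_finsetSum _ fun i _ => integrable_oneTerm l hφ i]
  refine integral_mono (integrable_finsetSum _ fun i _ => integrable_oneTerm l hφ i) ?_ fun x => ?_
  · have hk : Integrable fun x => (1 / 2 : ℝ) * ∑ i, ∑ a, slotDeriv i a φ x ^ 2 :=
      (integrable_finsetSum _ fun i _ => integrable_finsetSum _ fun a _ =>
        (memLp_dir hφ (dirs (i, a))).integrable_sq).const_mul _
    exact hk.add (((molSys_good n l h).integrable_mul hφ hφ).congr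
      (Eventually.of_forall fun x => by simp [molSys]; ring))
  · have hR : 0 ≤ lam * (∑ i, ∑ k ∈ Finset.Ioi i, 1 / ‖x i - x k‖) * φ x ^ 2 :=
      mul_nonneg (mul_nonneg h.1 (Finset.sum_nonneg fun i _ =>
        Finset.sum_nonneg fun k _ => by positivity)) (sq_nonneg _)
    simp only [molPot, Finset.sum_sub_distrib, ← Finset.mul_sum, add_mul, neg_mul, Finset.sum_mul]
    rw [Finset.mul_sum, Finset.sum_mul] at hR
    simp only [Finset.mul_sum, Finset.sum_mul] at hR ⊢
    linarith

theorem slice_test (i : Fin (m + 1)) {φ : Cfg (m + 1) → ℝ} (hφ : IsRealTest φ) (y : Cfg m) :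
    IsRealTest fun r => φ (i.insertNth r y) := by
  obtain ⟨K, hK⟩ := hφ.lipschitz
  have h1 : LipschitzWith 1 (fun r : Space => (i.insertNth r y : Cfg (m + 1))) := by
    refine LipschitzWith.of_dist_le_mul fun r r' => ?_
    rw [NNReal.coe_one, one_mul, dist_pi_le_iff dist_nonneg]
    intro j
    rcases Fin.eq_self_or_eq_succAbove i j with rfl | ⟨k, rfl⟩ <;> simp
  exact ⟨⟨_, by simpa [Function.comp_def] using hK.comp h1⟩,
    HasCompactSupport.of_support_subset_isCompact (hφ.compact.isCompact.image (continuous_apply i))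
      fun r hr => ⟨i.insertNth r y, subset_tsupport _ hr, Fin.insertNth_apply_same _ _ _⟩⟩

theorem rest_test (i : Fin (m + 1)) {φ : Cfg (m + 1) → ℝ} (hφ : IsRealTest φ) (r : Space) :
    IsRealTest fun y : Cfg m => φ (i.insertNth r y) := by
  obtain ⟨K, hK⟩ := hφ.lipschitz
  have h1 : LipschitzWith 1 (fun y : Cfg m => (i.insertNth r y : Cfg (m + 1))) := by
    refine LipschitzWith.of_dist_le_mul fun y y' => ?_
    rw [NNReal.coe_one, one_mul, dist_pi_le_iff dist_nonneg]
    intro j
    rcases Fin.eq_self_or_eq_succAbove i j with rfl | ⟨k, rfl⟩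
    · simp
    · simpa using dist_le_pi_dist y y' k
  exact ⟨⟨_, by simpa [Function.comp_def] using hK.comp h1⟩,
    HasCompactSupport.of_support_subset_isCompact
      (hφ.compact.isCompact.image (f := fun (x : Cfg (m + 1)) (k : Fin m) => x (i.succAbove k))
        (by fun_prop))
      fun y hy => ⟨i.insertNth r y, subset_tsupport _ hy, by funext k; simp⟩⟩

theorem deriv_slice (i : Fin (m + 1)) {φ : Cfg (m + 1) → ℝ} {r : Space} {y : Cfg m}
    (hd : DifferentiableAt ℝ φ (i.insertNth r y)) (a : Fin 3) :
    deriv3 a (fun r => φ (i.insertNth r y)) r = slotDeriv i a φ (i.insertNth r y) := by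
  have h1 : HasFDerivAt (fun r : Space => (i.insertNth r y : Cfg (m + 1)))
      (ContinuousLinearMap.single ℝ (fun _ => Space) i) r := by
    rw [hasFDerivAt_pi']
    intro j
    rcases Fin.eq_self_or_eq_succAbove i j with rfl | ⟨k, rfl⟩
    · simp only [Fin.insertNth_apply_same]
      refine (hasFDerivAt_id r).congr_fderiv ?_
      ext1 w; simp
    · simp only [Fin.insertNth_apply_succAbove]
      refine (hasFDerivAt_const (y k) r).congr_fderiv ?_
      ext1 w; simp [Fin.succAbove_ne]
  have h2 := (hd.hasFDerivAt.comp r h1).fderiv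
  rw [Function.comp_def] at h2
  rw [deriv3, slotDeriv, h2]
  simp

theorem integrable_slice (i : Fin (m + 1)) {f : Cfg (m + 1) → ℝ} (hf : Integrable f) :
    Integrable fun y : Cfg m => ∫ r, f (i.insertNth r y) := by
  have h := (volume_preserving_piFinSuccAbove (fun _ : Fin (m + 1) => Space) i).symm _
  have := (h.integrable_comp_emb (MeasurableEquiv.measurableEmbedding _)).2 hf
  rw [Measure.volume_eq_prod] at this
  exact this.integral_prod_right

theorem uncurry_slice (i : Fin (m + 1)) {φ : Cfg (m + 1) → ℝ} (hφ : IsRealTest φ) :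
    Continuous (Function.uncurry fun (r : Space) (y : Cfg m) => φ (i.insertNth r y)) ∧
      HasCompactSupport (Function.uncurry fun (r : Space) (y : Cfg m) => φ (i.insertNth r y)) := by
  obtain ⟨K, hK⟩ := hφ.lipschitz
  refine ⟨hK.continuous.comp (by fun_prop), ?_⟩
  refine HasCompactSupport.intro (hφ.compact.isCompact.image
    (f := fun x : Cfg (m + 1) => (x i, fun k => x (i.succAbove k))) (by fun_prop)) fun z hz => ?_
  refine image_eq_zero_of_notMem_tsupport (f := φ) (x := i.insertNth z.1 z.2)
    fun h => hz ⟨_, h, ?_⟩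
  ext <;> simp

theorem memLp_coef_slot {g : Space → ℝ} (hg : MemLp g 2) (i : Fin (m + 1)) {φ : Cfg (m + 1) → ℝ}
    (hφ : IsRealTest φ) : MemLp (coef g i φ) 2 :=
  memLp_coef (uncurry_slice i hφ).1 (uncurry_slice i hφ).2 hg

theorem mass_slot (i : Fin (m + 1)) {φ : Cfg (m + 1) → ℝ} (hφ : IsRealTest φ) :
    mass φ = ∫ y : Cfg m, mass fun r => φ (i.insertNth r y) :=
  integral_insertNth i (memLp_test hφ).integrable_sq

/-- A one-body term in terms of the components along the two lowest states. -/
theorem oneTerm_ge {l eg eu e' : ℝ} {g u : Space → ℝ} {Dg Du : Fin 3 → Space → ℝ}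
    (hz : ZeroOrder l g u Dg Du eg eu e') (i : Fin (m + 1)) {φ : Cfg (m + 1) → ℝ}
    (hφ : IsRealTest φ) :
    e' * mass φ - (e' - eg) * mass (coef g i φ) - (e' - eu) * mass (coef u i φ) ≤
      oneTerm l i φ := by
  obtain ⟨K, hK⟩ := hφ.lipschitz
  have hN := integrable_slice i (memLp_test hφ).integrable_sq
  have hG := (memLp_coef_slot hz.g_lim.1 i hφ).integrable_sq
  have hU := (memLp_coef_slot hz.u_lim.1 i hφ).integrable_sq
  rw [mass_slot i hφ, oneTerm, integral_insertNth i (integrable_oneTerm l hφ i)]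
  simp only [mass]
  have hNG : Integrable fun y =>
      e' * (∫ r, φ (i.insertNth r y) ^ 2) - (e' - eg) * coef g i φ y ^ 2 :=
    (hN.const_mul _).sub (hG.const_mul _)
  have hall : Integrable fun y =>
      e' * (∫ r, φ (i.insertNth r y) ^ 2) - (e' - eg) * coef g i φ y ^ 2
        - (e' - eu) * coef u i φ y ^ 2 :=
    hNG.sub (hU.const_mul _)
  rw [← integral_const_mul, ← integral_const_mul, ← integral_const_mul,
    ← integral_sub (hN.const_mul _) (hG.const_mul _), ← integral_sub hNG (hU.const_mul _)]
  refine integral_mono_ae hall (integrable_slice i (integrable_oneTerm l hφ i)) ?_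
  filter_upwards [ae_slice i hK.ae_differentiableAt] with y hy
  refine (hz.gap _ (slice_test i hφ y)).trans_eq ?_
  rw [formOne]
  refine integral_congr_ae ?_
  filter_upwards [hy] with r hr
  simp only [deriv_slice i hr, Fin.insertNth_apply_same]

theorem integral_cfg1 (f : Cfg 1 → ℝ) : ∫ y, f y = ∫ q : Space, f fun _ => q :=
  ((volume_preserving_funUnique (Fin 1) Space).symm _).integral_comp
    (MeasurableEquiv.measurableEmbedding _) f |>.symm

theorem pair_eq_insert_zero (p q : Space) :
    (![p, q] : Cfg 2) = Fin.insertNth 0 p fun _ : Fin 1 => q := by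
  funext j; fin_cases j <;> rfl

theorem pair_eq_insert_one (p q : Space) :
    (![p, q] : Cfg 2) = Fin.insertNth 1 q fun _ : Fin 1 => p := by
  funext j; fin_cases j <;> rfl

theorem integral_cfg2 {f : Cfg 2 → ℝ} (hf : Integrable f) :
    ∫ x, f x = ∫ q : Space, ∫ p : Space, f ![p, q] := by
  rw [integral_insertNth 0 hf, integral_cfg1]
  simp only [pair_eq_insert_zero]

theorem triple_eq (p q r : Space) :
    (Fin.insertNth 2 r ![p, q] : Cfg 3) = Fin.insertNth 0 p ![q, r] := by
  funext j; fin_cases j <;> rfl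

end Vale.Agent.P363.Exist
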