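import Vale.Agent.P363.Exist.Trial

/-!
P363: the lowest two and three electron states at weak coupling: `threeGoal` and `twoGoal`.
-/

noncomputable section

namespace Vale.Agent.P363.Exist

open MeasureTheory Filter
open scoped BigOperators Topology ENNReal

/-- A state above a gap of the uncoupled problem: existence, closeness and symmetry. -/
theorem states_of_gap {n : ℕ} {l : ℝ} {P : (Cfg n → ℝ) → Prop} (hP : Closed P) {G : Cfg n → ℝ}
    {DG : Fin n × Fin 3 → Cfg n → ℝ} {E₀ δ : ℝ} {Gs : ℕ → Cfg n → ℝ} (hδ : 0 < δ)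
    (hG1 : mass G = 1)
    (hgap : ∀ φ, IsRealTest φ → P φ →
      δ * (mass φ - ip G φ ^ 2) ≤ ∑ i, oneTerm l i φ - E₀ * mass φ)
    (hA : (molSys n l 0).Approx Gs G DG) (hs : ∀ k, P (Gs k))
    (h0 : Tendsto (fun k => (molSys n l 0).bil E₀ (Gs k) (Gs k)) atTop (𝓝 0))
    (hproj : ∀ lam ∈ Set.Icc (0 : ℝ) 1, ∀ η : Cfg n → ℝ, IsRealTest η →
      ∃ η', IsRealTest η' ∧ P η' ∧ ∀ (e : ℝ) ψ, IsRealTest ψ → P ψ →
        (molSys n l lam).bil e ψ η = (molSys n l lam).bil e ψ η') :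
    ∃ lam₀ C : ℝ, 0 < lam₀ ∧ ∀ lam ∈ Set.Ioo 0 lam₀,
      ∃ (e : ℝ) (f : Cfg n → ℝ) (D : Fin n → Fin 3 → Cfg n → ℝ),
        IsLowest l lam P e f D ∧ E₀ ≤ e ∧ e ≤ E₀ + C * lam ∧
        ∫ x, (f x - G x) ^ 2 ≤ C * lam ∧
        (∀ i a, ∫ x, (D i a x - DG (i, a) x) ^ 2 ≤ C * lam) ∧
        ∀ (R : Space ≃ₗᵢ[ℝ] Space), (R (unit3 2) = unit3 2 ∨ R (unit3 2) = -unit3 2) →
          ∀ σ : Equiv.Perm (Fin n), (∀ χ, P χ → P (χ ∘ slotMap R σ)) → ∀ τ : ℝ, τ ^ 2 = 1 →
            (∀ᵐ x, G (slotMap R σ x) = τ * G x) → ∀ᵐ x, f (slotMap R σ x) = τ * f x := by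
  obtain ⟨C₀, hC₀, hcoup⟩ := coupled_trial hA h0
  obtain ⟨Ck, hCk0, hCk⟩ := molSys_kin_le n l
  set K := 8 * C₀ + (Ck + 4 * (|E₀| + δ)) * (2 * C₀ / δ) with hK
  refine ⟨min 1 (δ / (C₀ + 1)), C₀ + 2 * C₀ / δ + K, lt_min one_pos (by positivity),
    fun lam hlam => ?_⟩
  obtain ⟨hl0, hlt⟩ := hlam
  have hl1 : lam < 1 := lt_of_lt_of_le hlt (min_le_left _ _)
  have hI : lam ∈ Set.Icc (0 : ℝ) 1 := ⟨hl0.le, hl1.le⟩
  have hc : C₀ * lam < δ := by
    have h := lt_of_lt_of_le hlt (min_le_right _ _)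
    rw [lt_div_iff₀ (by positivity)] at h
    linarith [show lam * (C₀ + 1) = C₀ * lam + lam by ring]
  set S := molSys n l lam with hSdef
  have hS : S.Good := molSys_good n l hI
  obtain ⟨hA', hval⟩ := hcoup lam hI
  have hT : S.Trial P G DG E₀ δ (C₀ * lam) Gs :=
    ⟨hS, hP, hG1, hc, fun φ hφ hφP => by
      rw [S.bil_eq_form hS E₀ hφ, hSdef, form_molSys]
      linarith [hgap φ hφ hφP, sum_oneTerm_le l hI hφ], hA', hs, hval⟩
  obtain ⟨e, f, D, φ, he0, hec, hgapped, hmin, hAp, hf1, huniq, hweak, hclose, hgrad⟩ :=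
    hT.exists_lowest (hCk lam hI)
  have hK0 : 0 ≤ K := by rw [hK]; positivity
  have h2C : 0 ≤ 2 * C₀ / δ := by positivity
  have habs : |e| ≤ |E₀| + δ := by
    rw [abs_le]
    constructor <;> linarith [neg_abs_le E₀, le_abs_self E₀, abs_nonneg E₀]
  refine ⟨e, f, fun i a => D (i, a), ?_, he0, ?_, ?_, fun i a => ?_, ?_⟩
  · refine ⟨⟨hAp.memLp, fun i a => hAp.memLp_grad (i, a), φ,
      fun k => ⟨hmin.test k, hmin.sector k⟩, hAp.value, fun i a => hAp.grad (i, a)⟩, hf1,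
      fun ψ hψ hψP => ?_, fun η hη => ?_⟩
    · have h := hgapped.low ψ hψ hψP
      rw [S.bil_eq_form hS e hψ, hSdef, form_molSys, mass] at h
      linarith
    · obtain ⟨η', hη', hP', heq⟩ := hproj lam hI η hη
      have hw := hweak η hη ⟨η', hη', hP', fun k => heq e (φ k) (hmin.test k) (hmin.sector k)⟩
      rw [bilLim_eq hAp (Sys.Approx.const S hη) hS e] at hw
      simp only [hSdef, molSys, Fintype.sum_prod_type, dir_dirs] at hw
      exact hw
  · nlinarith [mul_nonneg h2C hl0.le, mul_nonneg hK0 hl0.le]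
  · refine hclose.trans (le_of_eq_of_le (show 2 * (C₀ * lam) / δ = 2 * C₀ / δ * lam by ring) ?_)
    nlinarith [mul_nonneg hC₀ hl0.le, mul_nonneg hK0 hl0.le]
  · refine (hgrad (i, a)).trans ?_
    have hab : abs (Ck + 4 * abs e) ≤ Ck + 4 * (|E₀| + δ) := by
      rw [abs_of_nonneg (by positivity)]; linarith
    calc 8 * (C₀ * lam) + abs (Ck + 4 * abs e) * (2 * (C₀ * lam) / δ)
        ≤ 8 * (C₀ * lam) + (Ck + 4 * (|E₀| + δ)) * (2 * (C₀ * lam) / δ) := by
          have : 0 ≤ 2 * (C₀ * lam) / δ := by positivity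
          exact add_le_add le_rfl (mul_le_mul_of_nonneg_right hab this)
      _ = K * lam := by rw [hK]; ring
      _ ≤ _ := by
          refine mul_le_mul_of_nonneg_right ?_ hl0.le
          linarith
  · intro R hR σ hPT τ hτ hG
    exact (molSys_symm hR σ l lam).lowest_symm hgapped hmin hAp huniq hPT hτ hG

theorem closed_anti (n : ℕ) : Closed (Anti01 : (Cfg (n + 2) → ℝ) → Prop) := by
  intro a b φ χ hφ hχ x
  simp only [Pi.add_apply, Pi.smul_apply, smul_eq_mul, hφ x, hχ x]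
  ring

theorem closed_symmOdd : Closed SymmOdd := by
  intro a b φ χ hφ hχ
  refine ⟨fun x => ?_, fun x => ?_⟩
  · simp only [Pi.add_apply, Pi.smul_apply, smul_eq_mul, hφ.1 x, hχ.1 x]
  · simp only [Pi.add_apply, Pi.smul_apply, smul_eq_mul, hφ.2 x, hχ.2 x]
    ring

theorem slotMap_comp_perm {n : ℕ} (R : Space ≃ₗᵢ[ℝ] Space) (σ : Equiv.Perm (Fin n)) (x : Cfg n)
    (p : Equiv.Perm (Fin n)) (h : Commute σ p) :
    slotMap R σ (x ∘ p) = slotMap R σ x ∘ p := by
  funext i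
  simp only [Function.comp_apply, slotMap_apply, ← Equiv.Perm.mul_apply, h.eq]

theorem anti_comp {n : ℕ} (R : Space ≃ₗᵢ[ℝ] Space) (σ : Equiv.Perm (Fin (n + 2)))
    (h : Commute σ (Equiv.swap 0 1)) {χ : Cfg (n + 2) → ℝ} (hχ : Anti01 χ) :
    Anti01 (χ ∘ slotMap R σ) := fun x => by
  simp only [Function.comp_apply, slotMap_comp_perm R σ x _ h]
  exact hχ _

theorem anti_proj {n : ℕ} (l : ℝ) : ∀ lam ∈ Set.Icc (0 : ℝ) 1, ∀ η : Cfg (n + 2) → ℝ, IsRealTest η →
    ∃ η', IsRealTest η' ∧ Anti01 η' ∧ ∀ (e : ℝ) ψ, IsRealTest ψ → Anti01 ψ →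
      (molSys (n + 2) l lam).bil e ψ η = (molSys (n + 2) l lam).bil e ψ η' := by
  intro lam hlam η hη
  set T := slotMap (LinearIsometryEquiv.refl ℝ Space) (Equiv.swap (0 : Fin (n + 2)) 1) with hT
  refine ⟨(1 / 2 : ℝ) • η + ((-1 : ℝ) / 2) • (η ∘ T),
    isRealTest_comb _ _ hη (isRealTest_comp hη T), fun x => ?_, fun e ψ hψ hψP =>
      ((molSys_symm (Or.inl rfl) _ l lam).bil_avg (molSys_good _ l hlam) (fun x => ?_) (by norm_num)
        e hψ hη fun x => ?_).symm⟩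
  · have h2 : (x ∘ Equiv.swap (0 : Fin (n + 2)) 1) ∘ Equiv.swap 0 1 = x := by funext i; simp
    simp only [Pi.add_apply, Pi.smul_apply, smul_eq_mul, Function.comp_apply, hT, slotMap_refl, h2]
    ring
  · funext i; simp [slotMap_apply]
  · rw [slotMap_refl, hψP x, neg_one_mul]

theorem symmOdd_comp (R : Space ≃ₗᵢ[ℝ] Space) (σ : Equiv.Perm (Fin 2))
    (h : Commute σ (Equiv.swap 0 1)) (hm : ∀ x, R (mirror x) = mirror (R x)) {χ : Cfg 2 → ℝ}
    (hχ : SymmOdd χ) : SymmOdd (χ ∘ slotMap R σ) := by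
  refine ⟨fun x => ?_, fun x => ?_⟩
  · simp only [Function.comp_apply, slotMap_comp_perm R σ x _ h, hχ.1]
  · have e : slotMap R σ (fun i => mirror (x i)) = fun i => mirror (slotMap R σ x i) := by
      funext i; simp [slotMap_apply, hm]
    simp only [Function.comp_apply, e, hχ.2]

theorem axis_mirror {R : Space ≃ₗᵢ[ℝ] Space} (hR : R (unit3 2) = unit3 2) (x : Space) :
    R (mirror x) = mirror (R x) := by
  have h : height (R x) = height x := by
    have e : ∀ y : Space, height y = inner ℝ y (unit3 2) := fun y => (One.inner_unit3 y 2).symm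
    conv_lhs => rw [e, ← hR]
    rw [R.inner_map_map, ← e]
  rw [mirror, mirror, map_sub, map_smul, hR, h]

theorem symmOdd_proj (l : ℝ) : ∀ lam ∈ Set.Icc (0 : ℝ) 1, ∀ η : Cfg 2 → ℝ, IsRealTest η →
    ∃ η', IsRealTest η' ∧ SymmOdd η' ∧ ∀ (e : ℝ) ψ, IsRealTest ψ → SymmOdd ψ →
      (molSys 2 l lam).bil e ψ η = (molSys 2 l lam).bil e ψ η' := by
  intro lam hlam η hη
  set T := slotMap (LinearIsometryEquiv.refl ℝ Space) (Equiv.swap (0 : Fin 2) 1) with hT
  set M := slotMap One.mirrorIso (Equiv.refl (Fin 2)) with hM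
  set η₁ := (1 / 2 : ℝ) • η + ((1 : ℝ) / 2) • (η ∘ T) with hη₁
  have h1 : IsRealTest η₁ := isRealTest_comb _ _ hη (isRealTest_comp hη T)
  have hs : ∀ x, η₁ (x ∘ Equiv.swap 0 1) = η₁ x := fun x => by
    have h2 : (x ∘ Equiv.swap (0 : Fin 2) 1) ∘ Equiv.swap 0 1 = x := by funext i; simp
    simp only [hη₁, Pi.add_apply, Pi.smul_apply, smul_eq_mul, Function.comp_apply, hT,
      slotMap_refl, h2]
    ring
  refine ⟨(1 / 2 : ℝ) • η₁ + ((-1 : ℝ) / 2) • (η₁ ∘ M),
    isRealTest_comb _ _ h1 (isRealTest_comp h1 M), ⟨fun x => ?_, fun x => ?_⟩,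
    fun e ψ hψ hψP => ?_⟩
  · have e : M (x ∘ Equiv.swap 0 1) = M x ∘ Equiv.swap 0 1 := by
      funext i; simp [hM, slotMap_apply]
    simp only [Pi.add_apply, Pi.smul_apply, smul_eq_mul, Function.comp_apply, e, hs]
  · simp only [Pi.add_apply, Pi.smul_apply, smul_eq_mul, Function.comp_apply, hM, slotMap_mirror]
    simp only [One.mirror_mirror]
    ring
  · rw [(molSys_symm (Or.inr mirrorIso_axis) _ l lam).bil_avg (molSys_good _ l hlam)
      (fun x => by funext i; simp [slotMap_apply, One.mirrorIso_apply, One.mirror_mirror])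
      (by norm_num) e hψ h1 (fun x => by rw [slotMap_mirror, hψP.2, neg_one_mul]),
      (molSys_symm (Or.inl rfl) _ l lam).bil_avg (molSys_good _ l hlam)
        (fun x => by funext i; simp [slotMap_apply]) (one_pow 2) e hψ hη
        (fun x => by rw [slotMap_refl, hψP.1, one_mul])]

variable {l eg eu e' : ℝ} {g u : Space → ℝ} {Dg Du : Fin 3 → Space → ℝ}

theorem mass_zero3 (hz : ZeroOrder l g u Dg Du eg eu e') : mass (zero3 g u) = 1 := by
  have hg := hz.g_lim.1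
  have hu := hz.u_lim.1
  have e : zero3 g u = (√2)⁻¹ • prod3 g u g + (-(√2)⁻¹) • prod3 u g g := by
    funext x; simp [zero3, div_eq_inv_mul]; ring
  rw [e, mass_comb _ _ (memLp_prod3 hg hu hg) (memLp_prod3 hu hg hg), ← ip_self,
    ← ip_self (prod3 u g g), ip_prod3, ip_prod3, ip_prod3, ip_self, ip_self, mass_g hz, mass_u hz,
    ip_gu hz, neg_sq, inv_pow, Real.sq_sqrt zero_le_two]
  norm_num

theorem axis_slots {n : ℕ} {p : Space → ℝ} {R : Space ≃ₗᵢ[ℝ] Space} {s : ℝ}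
    (h : ∀ᵐ x, p (R x) = s * p x) : ∀ᵐ x : Cfg n, ∀ i, p (R (x i)) = s * p (x i) :=
  ae_all_iff.2 fun i => ae_slot i h

theorem mirror_slots (hz : ZeroOrder l g u Dg Du eg eu e') (n : ℕ) :
    ∀ᵐ x : Cfg n, ∀ i, g (mirror (x i)) = g (x i) ∧ u (mirror (x i)) = -u (x i) :=
  ae_all_iff.2 fun i => ae_slot i (hz.g_even.and hz.u_odd)

theorem axis_orbitals (hz : ZeroOrder l g u Dg Du eg eu e') {R : Space ≃ₗᵢ[ℝ] Space}
    (hR : R (unit3 2) = unit3 2) (n : ℕ) :
    ∀ᵐ x : Cfg n, ∀ i, g (R (x i)) = g (x i) ∧ u (R (x i)) = u (x i) :=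
  ae_all_iff.2 fun i => ae_slot i ((hz.g_axis R hR).and (hz.u_axis R hR))

/-- Three electrons at weak coupling. -/
theorem threeGoal : ThreeGoal := by
  intro l g u Dg Du eg eu e' hz
  obtain ⟨Gs, hA, h0, hs⟩ := trial_three hz
  obtain ⟨lam₀, C, hl, h⟩ := states_of_gap (closed_anti 1)
    (lt_min (by linarith [hz.eg_lt]) (by linarith [hz.eu_lt])) (mass_zero3 hz)
    (fun φ hφ hφP => gap_three hz hφ hφP) hA hs h0 (anti_proj l)
  refine ⟨lam₀, C, hl, fun lam hlam => ?_⟩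
  obtain ⟨e, f, D, hlow, he0, hec, hclose, hgrad, hsym⟩ := h lam hlam
  refine ⟨e, f, D, hlow, ?_, ?_, fun R hR => ?_, he0, hec, hclose, hgrad⟩
  · have := hsym (LinearIsometryEquiv.refl ℝ Space) (Or.inl rfl) (Equiv.swap 0 1)
      (fun χ hχ => anti_comp _ _ (Commute.refl _) hχ) (-1) (by norm_num)
      (Eventually.of_forall fun x => by
        simp only [slotMap_refl, zero3, prod3, Function.comp_apply, Equiv.swap_apply_left,
          Equiv.swap_apply_right, show Equiv.swap (0 : Fin 3) 1 2 = 2 by decide]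
        ring)
    filter_upwards [this] with x hx
    rwa [slotMap_refl, neg_one_mul] at hx
  · have := hsym One.mirrorIso (Or.inr mirrorIso_axis) (Equiv.refl _)
      (fun χ hχ => anti_comp _ _ (Commute.one_left _) hχ) (-1) (by norm_num) (by
        filter_upwards [mirror_slots hz 3] with x hx
        simp only [slotMap_mirror, zero3, prod3, hx]
        ring)
    filter_upwards [this] with x hx
    rwa [slotMap_mirror, neg_one_mul] at hx
  · have := hsym R (Or.inl hR) (Equiv.refl _)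
      (fun χ hχ => anti_comp _ _ (Commute.one_left _) hχ) 1 (one_pow 2) (by
        filter_upwards [axis_orbitals hz hR 3] with x hx
        simp only [slotMap_apply, Equiv.refl_apply, zero3, prod3, hx, one_mul])
    filter_upwards [this] with x hx
    rwa [one_mul] at hx

/-- The ground state of two electrons. -/
theorem two_ion (hz : ZeroOrder l g u Dg Du eg eu e') :
    ∃ lam₀ C : ℝ, 0 < lam₀ ∧ ∀ lam ∈ Set.Ioo 0 lam₀,
      ∃ E f D, TwoState l lam C (fun _ => True) 1 1 (2 * eg) (prod2 g g)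
        (prod2Grad g g Dg Dg) E f D := by
  obtain ⟨Gs, hA, h0⟩ := trial_ion hz
  have hG1 : mass (prod2 g g) = 1 := by
    rw [← ip_self, ip_prod2, ip_self, mass_g hz, one_mul]
  obtain ⟨lam₀, C, hl, h⟩ := states_of_gap (P := fun _ => True) (fun _ _ _ _ _ _ => trivial)
    (sub_pos.2 hz.eg_lt) hG1 (fun φ hφ _ => gap_ion hz hφ) hA (fun _ => trivial) h0
    (fun _ _ η hη => ⟨η, hη, trivial, fun _ _ _ _ => rfl⟩)
  refine ⟨lam₀, C, hl, fun lam hlam => ?_⟩
  obtain ⟨e, f, D, hlow, he0, hec, hclose, hgrad, hsym⟩ := h lam hlam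
  refine ⟨e, f, D, hlow, ?_, ?_, fun R hR => ?_, he0, hec, hclose, hgrad⟩
  · have := hsym (LinearIsometryEquiv.refl ℝ Space) (Or.inl rfl) (Equiv.swap 0 1)
      (fun _ _ => trivial) 1 (one_pow 2) (Eventually.of_forall fun x => by
        simp only [slotMap_refl, prod2, Function.comp_apply, Equiv.swap_apply_left,
          Equiv.swap_apply_right]
        ring)
    filter_upwards [this] with x hx
    rwa [slotMap_refl] at hx
  · have := hsym One.mirrorIso (Or.inr mirrorIso_axis) (Equiv.refl _)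
      (fun _ _ => trivial) 1 (one_pow 2) (by
        filter_upwards [mirror_slots hz 2] with x hx
        simp only [slotMap_mirror, prod2, hx, one_mul])
    filter_upwards [this] with x hx
    rwa [slotMap_mirror] at hx
  · have := hsym R (Or.inl hR) (Equiv.refl _) (fun _ _ => trivial) 1 (one_pow 2) (by
        filter_upwards [axis_orbitals hz hR 2] with x hx
        simp only [slotMap_apply, Equiv.refl_apply, prod2, hx, one_mul])
    filter_upwards [this] with x hx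
    rwa [one_mul] at hx

/-- The lowest state of a two-electron sector near `(g ⊗ u + σ u ⊗ g) / √2`. -/
theorem two_mixed (hz : ZeroOrder l g u Dg Du eg eu e') {σ : ℝ} (hσ : σ ^ 2 = 1)
    {P : (Cfg 2 → ℝ) → Prop} (hP : Closed P)
    (hgap : ∀ φ, IsRealTest φ → P φ →
      (e' - eu) * (mass φ - ip (mix σ g u) φ ^ 2) ≤ ∑ i, oneTerm l i φ - (eg + eu) * mass φ)
    (hPs : ∀ φ : Cfg 2 → ℝ, (∀ x, φ (x ∘ Equiv.swap 0 1) = σ * φ x) →
      (∀ x : Cfg 2, φ (fun i => mirror (x i)) = -φ x) → P φ)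
    (hPc : ∀ (R : Space ≃ₗᵢ[ℝ] Space) (p : Equiv.Perm (Fin 2)), Commute p (Equiv.swap 0 1) →
      (∀ x, R (mirror x) = mirror (R x)) → ∀ χ, P χ → P (χ ∘ slotMap R p))
    (hproj : ∀ lam ∈ Set.Icc (0 : ℝ) 1, ∀ η : Cfg 2 → ℝ, IsRealTest η →
      ∃ η', IsRealTest η' ∧ P η' ∧ ∀ (e : ℝ) ψ, IsRealTest ψ → P ψ →
        (molSys 2 l lam).bil e ψ η = (molSys 2 l lam).bil e ψ η') :
    ∃ lam₀ C : ℝ, 0 < lam₀ ∧ ∀ lam ∈ Set.Ioo 0 lam₀,
      ∃ E f D, TwoState l lam C P σ (-1) (eg + eu)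
        (fun x => (prod2 g u x + σ * prod2 u g x) / √2)
        (fun i a x => (prod2Grad g u Dg Du i a x + σ * prod2Grad u g Du Dg i a x) / √2) E f D := by
  obtain ⟨Gs, hA, h0, hs1, hs2⟩ := trial_mixed hz hσ
  have hG1 := mass_mix hσ hz.g_lim.1 hz.u_lim.1 (mass_g hz) (mass_u hz) (ip_gu hz)
  obtain ⟨lam₀, C, hl, h⟩ := states_of_gap hP (sub_pos.2 hz.eu_lt) hG1 hgap hA
    (fun k => hPs _ (hs1 k) (hs2 k)) h0 hproj
  refine ⟨lam₀, C, hl, fun lam hlam => ?_⟩
  obtain ⟨e, f, D, hlow, he0, hec, hclose, hgrad, hsym⟩ := h lam hlam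
  have hG : ∀ x, mix σ g u x = (prod2 g u x + σ * prod2 u g x) / √2 := fun x => by
    simp only [mix, Pi.add_apply, Pi.smul_apply, smul_eq_mul]; ring
  refine ⟨e, f, D, hlow, ?_, ?_, fun R hR => ?_, he0, hec, ?_, fun i a => ?_⟩
  · have := hsym (LinearIsometryEquiv.refl ℝ Space) (Or.inl rfl) (Equiv.swap 0 1)
      (hPc _ _ (Commute.refl _) fun x => rfl) σ hσ (Eventually.of_forall fun x => by
        simp only [slotMap_refl, hG, prod2, Function.comp_apply, Equiv.swap_apply_left,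
          Equiv.swap_apply_right]
        linear_combination (-(g (x 1) * u (x 0)) / √2) * hσ)
    filter_upwards [this] with x hx
    rwa [slotMap_refl] at hx
  · have := hsym One.mirrorIso (Or.inr mirrorIso_axis) (Equiv.refl _)
      (hPc _ _ (Commute.one_left _) fun x => by simp [One.mirrorIso_apply]) (-1) (by norm_num) (by
        filter_upwards [mirror_slots hz 2] with x hx
        simp only [slotMap_mirror, hG, prod2, hx]
        ring)
    filter_upwards [this] with x hx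
    rwa [slotMap_mirror] at hx
  · have := hsym R (Or.inl hR) (Equiv.refl _)
      (hPc _ _ (Commute.one_left _) (axis_mirror hR)) 1 (one_pow 2) (by
        filter_upwards [axis_orbitals hz hR 2] with x hx
        simp only [slotMap_apply, Equiv.refl_apply, hG, prod2, hx, one_mul])
    filter_upwards [this] with x hx
    rwa [one_mul] at hx
  · simpa only [hG] using hclose
  · refine le_of_eq_of_le (integral_congr_ae (Eventually.of_forall fun x => ?_)) (hgrad i a)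
    simp only [Pi.add_apply, Pi.smul_apply, smul_eq_mul]
    ring

theorem twoState_mono {lam C C' σ τ E₀ E : ℝ} {P : (Cfg 2 → ℝ) → Prop} {G f : Cfg 2 → ℝ}
    {DG D : Fin 2 → Fin 3 → Cfg 2 → ℝ} (h : TwoState l lam C P σ τ E₀ G DG E f D) (hC : C ≤ C')
    (hlam : 0 ≤ lam) : TwoState l lam C' P σ τ E₀ G DG E f D := by
  have := mul_le_mul_of_nonneg_right hC hlam
  exact ⟨h.lowest, h.exchange, h.parity, h.axis, h.energy_ge, by linarith [h.energy_le],
    h.close.trans this, fun i a => (h.close_grad i a).trans this⟩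

/-- Two electrons at weak coupling. -/
theorem twoGoal : TwoGoal := by
  intro l g u Dg Du eg eu e' hz
  obtain ⟨l1, C1, hl1, h1⟩ := two_ion hz
  obtain ⟨l2, C2, hl2, h2⟩ := two_mixed hz (one_pow 2) closed_symmOdd
    (fun φ hφ hφP => gap_singlet hz hφ hφP)
    (fun φ h1 h2 => ⟨fun x => (h1 x).trans (one_mul _), h2⟩)
    (fun R p hp hm χ hχ => symmOdd_comp R p hp hm hχ) (symmOdd_proj l)
  obtain ⟨l3, C3, hl3, h3⟩ := two_mixed hz (σ := -1) (by norm_num) (closed_anti 0)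
    (fun φ hφ hφP => gap_triplet hz hφ hφP)
    (fun φ h1 _ x => (h1 x).trans (neg_one_mul _))
    (fun R p hp _ χ hχ => anti_comp R p hp hχ) (anti_proj l)
  refine ⟨min l1 (min l2 l3), max C1 (max C2 C3), lt_min hl1 (lt_min hl2 hl3),
    fun lam hlam => ⟨?_, ?_, ?_⟩⟩
  · obtain ⟨E, f, D, h⟩ := h1 lam ⟨hlam.1, lt_of_lt_of_le hlam.2 (min_le_left _ _)⟩
    exact ⟨E, f, D, twoState_mono h (le_max_left _ _) hlam.1.le⟩
  · obtain ⟨E, f, D, h⟩ := h2 lam ⟨hlam.1,
      lt_of_lt_of_le hlam.2 ((min_le_right _ _).trans (min_le_left _ _))⟩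
    simp only [one_mul] at h
    exact ⟨E, f, D, twoState_mono h ((le_max_left _ _).trans (le_max_right _ _)) hlam.1.le⟩
  · obtain ⟨E, f, D, h⟩ := h3 lam ⟨hlam.1,
      lt_of_lt_of_le hlam.2 ((min_le_right _ _).trans (min_le_right _ _))⟩
    simp only [neg_one_mul, ← sub_eq_add_neg] at h
    exact ⟨E, f, D, twoState_mono h ((le_max_right _ _).trans (le_max_right _ _)) hlam.1.le⟩

end Vale.Agent.P363.Exist
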