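import Vale.Agent.P363.Exist.Min

/-!
P363: symmetries of a form and how they act on lowest states.
-/

noncomputable section

namespace Vale.Agent.P363.Exist

open MeasureTheory Filter
open scoped BigOperators Topology ENNReal

variable {E : Type} [NormedAddCommGroup E] [NormedSpace ℝ E] [FiniteDimensional ℝ E]
  [MeasureSpace E] [BorelSpace E] [(volume : Measure E).IsAddHaarMeasure]
  {ι : Type} [Fintype ι]

/-- A linear change of variables commuting with the form. -/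
structure Sys.Symm (S : Sys E ι) (T : E ≃L[ℝ] E) : Prop where
  pres : MeasurePreserving T
  dirs : ∀ L M : E →L[ℝ] ℝ, ∑ j, L (T (S.v j)) * M (T (S.v j)) = ∑ j, L (S.v j) * M (S.v j)
  pot : ∀ x, S.V (T x) = S.V x

variable {T : E ≃L[ℝ] E}

omit [FiniteDimensional ℝ E] [BorelSpace E] [(volume : Measure E).IsAddHaarMeasure]
  [MeasureSpace E] in
theorem isRealTest_comp {φ : E → ℝ} (hφ : IsRealTest φ) (T : E ≃L[ℝ] E) :
    IsRealTest (φ ∘ T) := by
  obtain ⟨K, hK⟩ := hφ.lipschitz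
  exact ⟨⟨_, hK.comp T.lipschitz⟩, hφ.compact.comp_homeomorph T.toHomeomorph⟩

omit [FiniteDimensional ℝ E] [BorelSpace E] [(volume : Measure E).IsAddHaarMeasure]
  [MeasureSpace E] in
theorem dir_comp (φ : E → ℝ) (T : E ≃L[ℝ] E) (w x : E) :
    dir w (φ ∘ T) x = dir (T w) φ (T x) := by
  simp [dir, T.comp_right_fderiv]

theorem integral_symm (hT : MeasurePreserving T) (f : E → ℝ) : ∫ x, f (T x) = ∫ x, f x :=
  hT.integral_comp T.toHomeomorph.measurableEmbedding f

theorem ip_comp (hT : MeasurePreserving T) (f g : E → ℝ) : ip (f ∘ T) (g ∘ T) = ip f g :=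
  integral_symm hT fun x => f x * g x

theorem mass_comp (hT : MeasurePreserving T) (f : E → ℝ) : mass (f ∘ T) = mass f :=
  integral_symm hT fun x => f x ^ 2

variable {S : Sys E ι}

theorem Sys.Symm.bil_comp (hT : S.Symm T) (e : ℝ) {φ η : E → ℝ} (hφ : IsRealTest φ)
    (hη : IsRealTest η) : S.bil e (φ ∘ T) (η ∘ T) = S.bil e φ η := by
  have hk : ∀ (φ η : E → ℝ), IsRealTest φ → IsRealTest η →
      ∑ j, ip (dir (S.v j) φ) (dir (S.v j) η) =
        ∫ x, ∑ j, dir (S.v j) φ x * dir (S.v j) η x := fun φ η hφ hη =>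
    (integral_finsetSum _ fun j _ => (memLp_dir hφ (S.v j)).integrable_mul (memLp_dir hη (S.v j))
      ).symm
  have hsum : ∀ x, ∑ j, dir (S.v j) (φ ∘ T) x * dir (S.v j) (η ∘ T) x =
      ∑ j, dir (S.v j) φ (T x) * dir (S.v j) η (T x) := fun x => by
    simp only [dir_comp]
    exact hT.dirs (fderiv ℝ φ (T x)) (fderiv ℝ η (T x))
  have hp : ∀ x, (S.V x - e) * (φ ∘ T) x * (η ∘ T) x = (S.V (T x) - e) * φ (T x) * η (T x) :=
    fun x => by simp [hT.pot]
  simp only [Sys.bil, hk _ _ (isRealTest_comp hφ T) (isRealTest_comp hη T), hk _ _ hφ hη, hsum, hp,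
    integral_symm hT.pres (fun x => ∑ j, dir (S.v j) φ x * dir (S.v j) η x),
    integral_symm hT.pres (fun x => (S.V x - e) * φ x * η x)]

/-- A test function may be symmetrised inside a weak equation. -/
theorem Sys.Symm.bil_avg (hT : S.Symm T) (hS : S.Good) (hTT : ∀ x, T (T x) = x) {τ : ℝ}
    (hτ : τ ^ 2 = 1) (e : ℝ) {ψ η : E → ℝ} (hψ : IsRealTest ψ) (hη : IsRealTest η)
    (hψT : ∀ x, ψ (T x) = τ * ψ x) :
    S.bil e ψ ((1 / 2 : ℝ) • η + (τ / 2) • (η ∘ T)) = S.bil e ψ η := by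
  have h1 : (η ∘ T) ∘ T = η := by funext x; simp [hTT]
  have h2 : ψ ∘ T = τ • ψ + (0 : ℝ) • ψ := by funext x; simp [hψT]
  have h3 : S.bil e ψ (η ∘ T) = τ * S.bil e ψ η := by
    have := hT.bil_comp e hψ (isRealTest_comp hη T)
    rw [h1, h2, S.bil_comb hS e τ 0 hψ hψ hη] at this
    linarith
  rw [S.bil_comm, S.bil_comb hS e _ _ hη (isRealTest_comp hη T) hψ, S.bil_comm e η,
    S.bil_comm e (η ∘ T), h3]
  linear_combination (S.bil e ψ η / 2) * hτ

/-- A limit in mean square is unique almost everywhere. -/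
theorem ae_eq_of_limits {φ : ℕ → E → ℝ} {f g : E → ℝ} (hφ : ∀ k, MemLp (φ k) 2)
    (hf : MemLp f 2) (hg : MemLp g 2) (h1 : Tendsto (fun k => mass (φ k - f)) atTop (𝓝 0))
    (h2 : Tendsto (fun k => mass (φ k - g)) atTop (𝓝 0)) : f =ᵐ[volume] g :=
  (MemLp.toLp_eq_toLp_iff hf hg).1
    (tendsto_nhds_unique ((tendsto_toLp hφ hf).1 h1) ((tendsto_toLp hφ hg).1 h2))

/-- A lowest state inherits the symmetry of the state it is near to. -/
theorem Sys.Symm.lowest_symm {P : (E → ℝ) → Prop} {G f : E → ℝ} {e η K : ℝ}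
    {D : ι → E → ℝ} {φ : ℕ → E → ℝ} (hT : S.Symm T) (h : S.Gapped P G e η K)
    (hφ : S.Minimising P G e φ) (hA : S.Approx φ f D)
    (huniq : ∀ χ, S.Minimising P G e χ → Tendsto (fun k => mass (χ k - f)) atTop (𝓝 0))
    (hP : ∀ χ, P χ → P (χ ∘ T)) {τ : ℝ} (hτ : τ ^ 2 = 1)
    (hG : ∀ᵐ x, G (T x) = τ * G x) : ∀ᵐ x, f (T x) = τ * f x := by
  have hne : τ ≠ 0 := fun h0 => by simp [h0] at hτ
  set χ : ℕ → E → ℝ := fun k => τ • (φ k ∘ T) with hχ
  have hmin : S.Minimising P G e χ := by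
    refine ⟨fun k => isRealTest_smul _ (isRealTest_comp (hφ.test k) T),
      fun k => h.closed.smul _ (hP _ (hφ.sector k)), fun k => ?_, fun k => ?_, ?_⟩
    · rw [hχ, mass_smul, hτ, one_mul, mass_comp hT.pres, hφ.mass_one]
    · rw [hχ, ip_smul_right]
      have e2 : ip (G ∘ T) (φ k ∘ T) = τ * ip G (φ k ∘ T) := by
        rw [ip_congr (show G ∘ T =ᵐ[volume] τ • G from hG) (EventuallyEq.refl _ _), ip_comm,
          ip_smul_right, ip_comm]
      rw [ip_comp hT.pres] at e2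
      rw [← e2]
      exact hφ.sign k
    · refine hφ.energy.congr fun k => ?_
      rw [hχ, S.bil_smul h.good _ _ (isRealTest_comp (hφ.test k) T), hτ, one_mul,
        hT.bil_comp e (hφ.test k) (hφ.test k)]
  have hfT : MemLp (τ • (f ∘ T)) 2 := (hA.memLp.comp_measurePreserving hT.pres).const_smul τ
  have h2 : Tendsto (fun k => mass (χ k - τ • (f ∘ T))) atTop (𝓝 0) := by
    refine hA.value.congr fun k => ?_
    rw [hχ, ← smul_sub, mass_smul, hτ, one_mul,
      show (φ k ∘ T) - (f ∘ T) = (φ k - f) ∘ T from rfl, mass_comp hT.pres]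
  filter_upwards [ae_eq_of_limits (fun k => memLp_test (hmin.test k)) hA.memLp hfT
    (huniq χ hmin) h2] with x hx
  rw [hx]
  simp only [Pi.smul_apply, Function.comp_apply, smul_eq_mul]
  rw [← mul_assoc, ← sq, hτ, one_mul]

end Vale.Agent.P363.Exist
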