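import Vale.Agent.P363.Exist.Product
import Vale.Agent.P363.Exist.Gap

/-!
P363: trial sequences for the uncoupled two and three electron states.
-/

noncomputable section

namespace Vale.Agent.P363.Exist

open MeasureTheory Filter
open scoped BigOperators Topology ENNReal

/-- The limiting bilinear form as one integral. -/
theorem bilLim_eq {E ι : Type} [NormedAddCommGroup E] [NormedSpace ℝ E] [FiniteDimensional ℝ E]
    [MeasureSpace E] [BorelSpace E] [(volume : Measure E).IsAddHaarMeasure] [Fintype ι]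
    {S : Sys E ι} {φ χ : ℕ → E → ℝ} {f g : E → ℝ} {D D' : ι → E → ℝ}
    (h : S.Approx φ f D) (h' : S.Approx χ g D') (hS : S.Good) (e : ℝ) :
    S.bilLim e f g D D' =
      ∫ x, ((1 / 2 : ℝ) * ∑ j, D j x * D' j x + (S.V x - e) * f x * g x) := by
  have hk : Integrable fun x => (1 / 2 : ℝ) * ∑ j, D j x * D' j x :=
    (integrable_finsetSum _ fun j _ => (h.memLp_grad j).integrable_mul (h'.memLp_grad j)).const_mul _
  have hsum : ∫ x, ∑ j, D j x * D' j x = ∑ j, ip (D j) (D' j) :=
    integral_finsetSum _ fun j _ => (h.memLp_grad j).integrable_mul (h'.memLp_grad j)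
  rw [integral_add hk (h.tendsto_bil h' hS e).1, integral_const_mul, hsum, Sys.bilLim]

variable {l eg eu e' : ℝ} {g u : Space → ℝ} {Dg Du : Fin 3 → Space → ℝ}

/-- Along approximations of a one-electron eigenfunction the shifted form tends to zero. -/
theorem level_tendsto {e : ℝ} {f : Space → ℝ} {D : Fin 3 → Space → ℝ} {φ : ℕ → Space → ℝ}
    (h : (oneSys l).Approx φ f D)
    (hw : ∀ η : Space → ℝ, IsRealTest η →
      ∫ x, ((1 / 2 : ℝ) * ∑ a, D a x * deriv3 a η x - (attract l x + e) * f x * η x) = 0) :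
    Tendsto (fun k => (oneSys l).bil e (φ k) (φ k)) atTop (𝓝 0) := by
  have hS := oneSys_good l
  have hk : ∀ k, Tendsto (fun j => (oneSys l).bil e (φ j) (φ k)) atTop (𝓝 0) := by
    intro k
    have hc := Sys.Approx.const (oneSys l) (h.test k)
    have h0 := (h.tendsto_bil hc hS e).2
    have : (oneSys l).bilLim e f (φ k) D (fun a => dir ((oneSys l).v a) (φ k)) = 0 := by
      rw [bilLim_eq h hc hS e]
      refine (integral_congr_ae (Eventually.of_forall fun x => ?_)).trans (hw _ (h.test k))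
      simp only [oneSys, dir_unit3]
      ring
    rwa [this] at h0
  have hsel : ∀ k : ℕ, ∃ j, k ≤ j ∧ |(oneSys l).bil e (φ j) (φ k)| ≤ 1 / (k + 1 : ℝ) := fun k =>
    ((eventually_ge_atTop k).and ((hk k).abs.eventually_le_const
      (show |(0 : ℝ)| < 1 / (k + 1 : ℝ) by rw [abs_zero]; positivity))).exists
  choose σ hσ hb using hsel
  have hσt : Tendsto σ atTop atTop := tendsto_atTop_mono hσ tendsto_id
  have hsub : (oneSys l).Approx (fun k => φ (σ k)) f D :=
    ⟨fun k => h.test _, h.memLp, h.memLp_grad, h.value.comp hσt, fun a => (h.grad a).comp hσt⟩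
  have h1 := (hsub.tendsto_bil h hS e).2
  have h2 : Tendsto (fun k => (oneSys l).bil e (φ (σ k)) (φ k)) atTop (𝓝 0) :=
    squeeze_zero_norm hb tendsto_one_div_add_atTop_nhds_zero_nat
  rw [← tendsto_nhds_unique h1 h2]
  exact (h.tendsto_bil h hS e).2

theorem approx_one {P : (Space → ℝ) → Prop} {f : Space → ℝ} {D : Fin 3 → Space → ℝ}
    (h : IsOneLim P f D) : ∃ φ, (oneSys l).Approx φ f D ∧ ∀ k, P (φ k) := by
  obtain ⟨hf, hD, φ, hφ, hv, hg⟩ := h
  exact ⟨φ, ⟨fun k => (hφ k).1, hf, hD, hv, hg⟩, fun k => (hφ k).2⟩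

theorem ip_parity {p q : Space → ℝ} (hp : ∀ x, p (mirror x) = p x)
    (hq : ∀ x, q (mirror x) = -q x) : ip p q = 0 := by
  have h := ip_comp (T := One.mirrorIso.toContinuousLinearEquiv) One.mirrorIso.measurePreserving p q
  have h1 : p ∘ One.mirrorIso.toContinuousLinearEquiv = p :=
    funext fun x => by simpa [One.mirrorIso_apply] using hp x
  have h2 : q ∘ One.mirrorIso.toContinuousLinearEquiv = (-1 : ℝ) • q :=
    funext fun x => by simpa [One.mirrorIso_apply] using hq x
  rw [h1, h2, ip_smul_right] at h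
  linarith

/-- Approximations of the two orbitals with exact parities. -/
theorem orbitals (hz : ZeroOrder l g u Dg Du eg eu e') :
    ∃ p q : ℕ → Space → ℝ, (oneSys l).Approx p g Dg ∧ (oneSys l).Approx q u Du ∧
      (∀ k x, p k (mirror x) = p k x) ∧ (∀ k x, q k (mirror x) = -q k x) ∧
      (∀ k, ip (p k) (q k) = 0) ∧ (∀ k, ip (q k) (p k) = 0) ∧
      Tendsto (fun k => (oneSys l).bil eg (p k) (p k)) atTop (𝓝 0) ∧
      Tendsto (fun k => (oneSys l).bil eu (q k) (q k)) atTop (𝓝 0) ∧
      Tendsto (fun k => mass (p k)) atTop (𝓝 1) ∧ Tendsto (fun k => mass (q k)) atTop (𝓝 1) := by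
  obtain ⟨p, hp, hpe⟩ := approx_one (l := l) hz.g_lim
  obtain ⟨q, hq, hqo⟩ := approx_one (l := l) hz.u_lim
  refine ⟨p, q, hp, hq, hpe, hqo, fun k => ip_parity (hpe k) (hqo k),
    fun k => by rw [ip_comm]; exact ip_parity (hpe k) (hqo k),
    level_tendsto hp hz.g_weak, level_tendsto hq hz.u_weak, ?_, ?_⟩
  · rw [← mass_g hz]; exact tendsto_mass (fun k => memLp_test (hp.test k)) hp.memLp hp.value
  · rw [← mass_u hz]; exact tendsto_mass (fun k => memLp_test (hq.test k)) hq.memLp hq.value

/-- Trial sequence near `g ⊗ g`. -/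
theorem trial_ion (hz : ZeroOrder l g u Dg Du eg eu e') :
    ∃ Gs, (molSys 2 l 0).Approx Gs (prod2 g g) (fun q => prod2Grad g g Dg Dg q.1 q.2) ∧
      Tendsto (fun k => (molSys 2 l 0).bil (2 * eg) (Gs k) (Gs k)) atTop (𝓝 0) := by
  obtain ⟨p, q, hp, -, -, -, -, -, hbp, -, hmp, -⟩ := orbitals hz
  refine ⟨fun k => orb ![p k, p k], ?_, ?_⟩
  · have h := approx_orb l (p := fun k => ![p k, p k]) (f := ![g, g]) (D := ![Dg, Dg])
      fun i => by fin_cases i <;> simpa
    rw [orb_two] at h
    have e : (fun q : Fin 2 × Fin 3 => orb (Function.update ![g, g] q.1 (![Dg, Dg] q.1 q.2))) =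
        fun q => prod2Grad g g Dg Dg q.1 q.2 := by
      funext ⟨i, a⟩ x
      fin_cases i <;> simp [orb, prod2Grad, prod2, Fin.prod_univ_two]
    rwa [e] at h
  · have hE : 2 * eg = ∑ i, (![eg, eg] : Fin 2 → ℝ) i := by simp [two_mul]
    have h : ∀ k, (molSys 2 l 0).bil (2 * eg) (orb ![p k, p k]) (orb ![p k, p k]) =
        2 * ((oneSys l).bil eg (p k) (p k) * mass (p k)) := fun k => by
      rw [hE, bil_orb l _ (fun i => by fin_cases i <;> simpa using hp.test k)
        (fun i => by fin_cases i <;> simpa using hp.test k)]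
      simp [Fin.sum_univ_two, show (Finset.univ : Finset (Fin 2)).erase 0 = {1} by decide,
        show (Finset.univ : Finset (Fin 2)).erase 1 = {0} by decide, ip_self]
      ring
    simp only [h]
    simpa using (hbp.mul hmp).const_mul 2

/-- Trial sequences near `(g ⊗ u + σ u ⊗ g) / √2`. -/
theorem trial_mixed (hz : ZeroOrder l g u Dg Du eg eu e') {σ : ℝ} (hσ : σ ^ 2 = 1) :
    ∃ Gs, (molSys 2 l 0).Approx Gs (mix σ g u)
        (fun q => (√2)⁻¹ • prod2Grad g u Dg Du q.1 q.2 +
          (σ * (√2)⁻¹) • prod2Grad u g Du Dg q.1 q.2) ∧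
      Tendsto (fun k => (molSys 2 l 0).bil (eg + eu) (Gs k) (Gs k)) atTop (𝓝 0) ∧
      (∀ k x, Gs k (x ∘ Equiv.swap 0 1) = σ * Gs k x) ∧
      ∀ k (x : Cfg 2), Gs k (fun i => mirror (x i)) = -Gs k x := by
  obtain ⟨p, q, hp, hq, hpe, hqo, hpq, hqp, hbp, hbq, hmp, hmq⟩ := orbitals hz
  refine ⟨fun k => (√2)⁻¹ • orb ![p k, q k] + (σ * (√2)⁻¹) • orb ![q k, p k], ?_, ?_, ?_, ?_⟩
  · have h1 := approx_orb l (p := fun k => ![p k, q k]) (f := ![g, u]) (D := ![Dg, Du])
      fun i => by fin_cases i <;> simpa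
    have h2 := approx_orb l (p := fun k => ![q k, p k]) (f := ![u, g]) (D := ![Du, Dg])
      fun i => by fin_cases i <;> simpa
    have e : ∀ (a b : Space → ℝ) (Da Db : Fin 3 → Space → ℝ) (q : Fin 2 × Fin 3),
        orb (Function.update ![a, b] q.1 (![Da, Db] q.1 q.2)) = prod2Grad a b Da Db q.1 q.2 := by
      intro a b Da Db q
      obtain ⟨i, c⟩ := q
      funext x
      fin_cases i <;> simp [orb, prod2Grad, prod2, Fin.prod_univ_two]
    have h := approx_comb h1 h2 (√2)⁻¹ (σ * (√2)⁻¹)
    simp only [orb_two, e] at h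
    simpa only [mix, orb_two] using h
  · have h : ∀ k, (molSys 2 l 0).bil (eg + eu)
        ((√2)⁻¹ • orb ![p k, q k] + (σ * (√2)⁻¹) • orb ![q k, p k])
        ((√2)⁻¹ • orb ![p k, q k] + (σ * (√2)⁻¹) • orb ![q k, p k]) =
        (oneSys l).bil eg (p k) (p k) * mass (q k) +
          (oneSys l).bil eu (q k) (q k) * mass (p k) := by
      intro k
      have hgu : ∀ i, IsRealTest ((![p k, q k] : Fin 2 → Space → ℝ) i) := fun i => by
        fin_cases i <;> [simpa using hp.test k; simpa using hq.test k]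
      have hug : ∀ i, IsRealTest ((![q k, p k] : Fin 2 → Space → ℝ) i) := fun i => by
        fin_cases i <;> [simpa using hq.test k; simpa using hp.test k]
      have e1 : eg + eu = ∑ i, (![eg, eu] : Fin 2 → ℝ) i := by simp
      have e2 : eg + eu = ∑ i, (![eu, eg] : Fin 2 → ℝ) i := by simp [add_comm]
      have b1 : (molSys 2 l 0).bil (eg + eu) (orb ![p k, q k]) (orb ![p k, q k]) =
          (oneSys l).bil eg (p k) (p k) * mass (q k) +
            (oneSys l).bil eu (q k) (q k) * mass (p k) := by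
        rw [e1, bil_orb l _ hgu hgu]
        simp [Fin.sum_univ_two, show (Finset.univ : Finset (Fin 2)).erase 0 = {1} by decide,
          show (Finset.univ : Finset (Fin 2)).erase 1 = {0} by decide, ip_self]
      have b2 : (molSys 2 l 0).bil (eg + eu) (orb ![q k, p k]) (orb ![q k, p k]) =
          (oneSys l).bil eg (p k) (p k) * mass (q k) +
            (oneSys l).bil eu (q k) (q k) * mass (p k) := by
        rw [e2, bil_orb l _ hug hug]
        simp [Fin.sum_univ_two, show (Finset.univ : Finset (Fin 2)).erase 0 = {1} by decide,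
          show (Finset.univ : Finset (Fin 2)).erase 1 = {0} by decide, ip_self]
        ring
      have b3 : (molSys 2 l 0).bil (eg + eu) (orb ![p k, q k]) (orb ![q k, p k]) = 0 := by
        rw [e1, bil_orb l _ hgu hug]
        simp [Fin.sum_univ_two, show (Finset.univ : Finset (Fin 2)).erase 0 = {1} by decide,
          show (Finset.univ : Finset (Fin 2)).erase 1 = {0} by decide, hpq, hqp]
      rw [(molSys 2 l 0).bil_comb_self (molSys_good 2 l ⟨le_rfl, zero_le_one⟩) _ _ _
        (isRealTest_orb hgu) (isRealTest_orb hug), b1, b2, b3, mul_pow, hσ, inv_pow,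
        Real.sq_sqrt zero_le_two]
      ring
    simp only [h]
    simpa using (hbp.mul hmq).add (hbq.mul hmp)
  · intro k x
    simp only [Pi.add_apply, Pi.smul_apply, smul_eq_mul, orb_two, prod2, Function.comp_apply,
      Equiv.swap_apply_left, Equiv.swap_apply_right]
    linear_combination (-(√2)⁻¹ * (p k (x 1) * q k (x 0))) * hσ
  · intro k x
    simp only [Pi.add_apply, Pi.smul_apply, smul_eq_mul, orb_two, prod2, hpe, hqo]
    ring

/-- Trial sequence near `zero3 g u`. -/
theorem trial_three (hz : ZeroOrder l g u Dg Du eg eu e') :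
    ∃ Gs, (molSys 3 l 0).Approx Gs (zero3 g u) (fun q => zero3Grad g u Dg Du q.1 q.2) ∧
      Tendsto (fun k => (molSys 3 l 0).bil (2 * eg + eu) (Gs k) (Gs k)) atTop (𝓝 0) ∧
      ∀ k, Anti01 (n := 1) (Gs k) := by
  obtain ⟨p, q, hp, hq, hpe, hqo, hpq, hqp, hbp, hbq, hmp, hmq⟩ := orbitals hz
  refine ⟨fun k => (√2)⁻¹ • orb ![p k, q k, p k] + (-(√2)⁻¹) • orb ![q k, p k, p k], ?_, ?_, ?_⟩
  · have h1 := approx_orb l (p := fun k => ![p k, q k, p k]) (f := ![g, u, g])
      (D := ![Dg, Du, Dg]) fun i => by fin_cases i <;> simpa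
    have h2 := approx_orb l (p := fun k => ![q k, p k, p k]) (f := ![u, g, g])
      (D := ![Du, Dg, Dg]) fun i => by fin_cases i <;> simpa
    have e : ∀ (a b c : Space → ℝ) (Da Db Dc : Fin 3 → Space → ℝ) (q : Fin 3 × Fin 3),
        orb (Function.update ![a, b, c] q.1 (![Da, Db, Dc] q.1 q.2)) =
          prod3Grad a b c Da Db Dc q.1 q.2 := by
      intro a b c Da Db Dc q
      obtain ⟨i, d⟩ := q
      funext x
      fin_cases i <;> simp [orb, prod3Grad, prod3, Fin.prod_univ_three]
    have h := approx_comb h1 h2 (√2)⁻¹ (-(√2)⁻¹)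
    simp only [orb_three, e] at h
    have hG : (√2)⁻¹ • prod3 g u g + (-(√2)⁻¹) • prod3 u g g = zero3 g u := by
      funext x; simp [zero3, div_eq_inv_mul]; ring
    have hD : (fun q : Fin 3 × Fin 3 => (√2)⁻¹ • prod3Grad g u g Dg Du Dg q.1 q.2 +
        (-(√2)⁻¹) • prod3Grad u g g Du Dg Dg q.1 q.2) =
        fun q => zero3Grad g u Dg Du q.1 q.2 := by
      funext q x; simp [zero3Grad, div_eq_inv_mul]; ring
    rw [hG, hD] at h
    simpa only [orb_three] using h
  · have h : ∀ k, (molSys 3 l 0).bil (2 * eg + eu)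
        ((√2)⁻¹ • orb ![p k, q k, p k] + (-(√2)⁻¹) • orb ![q k, p k, p k])
        ((√2)⁻¹ • orb ![p k, q k, p k] + (-(√2)⁻¹) • orb ![q k, p k, p k]) =
        2 * ((oneSys l).bil eg (p k) (p k) * (mass (q k) * mass (p k))) +
          (oneSys l).bil eu (q k) (q k) * (mass (p k) * mass (p k)) := by
      intro k
      have hgu : ∀ i, IsRealTest ((![p k, q k, p k] : Fin 3 → Space → ℝ) i) := fun i => by
        fin_cases i <;> [simpa using hp.test k; simpa using hq.test k; simpa using hp.test k]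
      have hug : ∀ i, IsRealTest ((![q k, p k, p k] : Fin 3 → Space → ℝ) i) := fun i => by
        fin_cases i <;> [simpa using hq.test k; simpa using hp.test k; simpa using hp.test k]
      have e1 : 2 * eg + eu = ∑ i, (![eg, eu, eg] : Fin 3 → ℝ) i := by
        simp [Fin.sum_univ_three]; ring
      have e2 : 2 * eg + eu = ∑ i, (![eu, eg, eg] : Fin 3 → ℝ) i := by
        simp [Fin.sum_univ_three]; ring
      have er0 : (Finset.univ : Finset (Fin 3)).erase 0 = {1, 2} := by decide
      have er1 : (Finset.univ : Finset (Fin 3)).erase 1 = {0, 2} := by decide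
      have er2 : (Finset.univ : Finset (Fin 3)).erase 2 = {0, 1} := by decide
      have b1 : (molSys 3 l 0).bil (2 * eg + eu) (orb ![p k, q k, p k]) (orb ![p k, q k, p k]) =
          2 * ((oneSys l).bil eg (p k) (p k) * (mass (q k) * mass (p k))) +
            (oneSys l).bil eu (q k) (q k) * (mass (p k) * mass (p k)) := by
        rw [e1, bil_orb l _ hgu hgu]
        simp [Fin.sum_univ_three, er0, er1, er2, ip_self]
        ring
      have b2 : (molSys 3 l 0).bil (2 * eg + eu) (orb ![q k, p k, p k]) (orb ![q k, p k, p k]) =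
          2 * ((oneSys l).bil eg (p k) (p k) * (mass (q k) * mass (p k))) +
            (oneSys l).bil eu (q k) (q k) * (mass (p k) * mass (p k)) := by
        rw [e2, bil_orb l _ hug hug]
        simp [Fin.sum_univ_three, er0, er1, er2, ip_self]
        ring
      have b3 : (molSys 3 l 0).bil (2 * eg + eu) (orb ![p k, q k, p k]) (orb ![q k, p k, p k]) =
          0 := by
        rw [e1, bil_orb l _ hgu hug]
        simp [Fin.sum_univ_three, er0, er1, er2, hpq, hqp]
      rw [(molSys 3 l 0).bil_comb_self (molSys_good 3 l ⟨le_rfl, zero_le_one⟩) _ _ _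
        (isRealTest_orb hgu) (isRealTest_orb hug), b1, b2, b3, neg_sq, inv_pow,
        Real.sq_sqrt zero_le_two]
      ring
    simp only [h]
    simpa using ((hbp.mul (hmq.mul hmp)).const_mul 2).add (hbq.mul (hmp.mul hmp))
  · intro k x
    simp only [Pi.add_apply, Pi.smul_apply, smul_eq_mul, orb_three, prod3, Function.comp_apply,
      Equiv.swap_apply_left, Equiv.swap_apply_right]
    rw [show Equiv.swap (0 : Fin 3) 1 2 = 2 by decide]
    ring

/-- Weak repulsion raises the trial energy by a multiple of the coupling. -/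
theorem coupled_trial {n : ℕ} {Gs : ℕ → Cfg n → ℝ} {G : Cfg n → ℝ}
    {DG : Fin n × Fin 3 → Cfg n → ℝ} {E₀ : ℝ} (h : (molSys n l 0).Approx Gs G DG)
    (h0 : Tendsto (fun k => (molSys n l 0).bil E₀ (Gs k) (Gs k)) atTop (𝓝 0)) :
    ∃ C : ℝ, 0 ≤ C ∧ ∀ lam ∈ Set.Icc (0 : ℝ) 1,
      (molSys n l lam).Approx Gs G DG ∧ (molSys n l lam).bilLim E₀ G G DG DG ≤ C * lam := by
  obtain ⟨C, hC0, hC⟩ := major_bound n l 1 one_pos
  refine ⟨(∑ q, mass (DG q)) + C * mass G,
    add_nonneg (Finset.sum_nonneg fun q _ => mass_nonneg _) (mul_nonneg hC0 (mass_nonneg _)),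
    fun lam hlam => ?_⟩
  have hA : (molSys n l lam).Approx Gs G DG := ⟨h.test, h.memLp, h.memLp_grad, h.value, h.grad⟩
  refine ⟨hA, ?_⟩
  have hkin : Tendsto (fun k => ∑ q, mass (dir (dirs q) (Gs k))) atTop (𝓝 (∑ q, mass (DG q))) :=
    tendsto_finsetSum _ fun q _ =>
      tendsto_mass (fun k => memLp_dir (h.test k) _) (h.memLp_grad q) (h.grad q)
  have hm := tendsto_mass (fun k => memLp_test (h.test k)) h.memLp h.value
  have hbound := h0.add ((hkin.add (hm.const_mul C)).mul_const lam)
  rw [zero_add] at hbound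
  refine le_of_tendsto_of_tendsto' (hA.tendsto_bil hA (molSys_good n l hlam) E₀).2 hbound
    fun k => ?_
  obtain ⟨hi, hle⟩ := hC _ (h.test k)
  rw [one_mul] at hle
  have i0 := (molSys_good n l ⟨le_rfl, zero_le_one⟩).integrable_shift E₀ (h.test k) (h.test k)
  have i1 := (molSys_good n l hlam).integrable_shift E₀ (h.test k) (h.test k)
  have hdiff : (∫ x, ((molSys n l lam).V x - E₀) * Gs k x * Gs k x) ≤
      (∫ x, ((molSys n l 0).V x - E₀) * Gs k x * Gs k x) +
        lam * ∫ x, molMajor l x * Gs k x ^ 2 := by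
    rw [← integral_const_mul, ← integral_add i0 (hi.const_mul lam)]
    refine integral_mono i1 (i0.add (hi.const_mul lam)) fun x => ?_
    simp only [molSys, molPot, molMajor, zero_mul, add_zero]
    have hA0 : 0 ≤ ∑ i, attract l (x i) := Finset.sum_nonneg fun i _ => attract_nonneg l _
    nlinarith [mul_nonneg (mul_nonneg hlam.1 hA0) (sq_nonneg (Gs k x))]
  have := mul_le_mul_of_nonneg_left hle hlam.1
  simp only [Sys.bil, show (molSys n l lam).v = dirs from rfl,
    show (molSys n l 0).v = dirs from rfl]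
  linarith

end Vale.Agent.P363.Exist
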